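import Vale.Agent.P153.R2.DRV.Stmt
import Vale.Agent.P153.R2.FLDI.Br

/-!
# P153, block DRV: the heights and the signed heights
-/

set_option autoImplicit false
set_option linter.unusedVariables false

open MeasureTheory ProbabilityTheory Filter Topology Set
open scoped NNReal ENNReal

namespace Vale.Agent.P153.R2.DRV

open Vale.Agent.P153.R2.Final Vale.Agent.P153.R2.UNIQ
open Vale.Agent.P153.R2.INTF (St run fa fb StopIx StopMeas Fk Rk len eta mem_CA Good)
open Vale.Agent.P153.R2.FLDI (inn mem_inn polyF enclF adjF)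
open Vale.Agent.P153.F.Dom (dl_nbr dl_poly)

variable {n k : ℕ} {p : ZMod n → ℤ × ℤ} {S : Finset Final.Tri}

theorem sg_cases (p : ZMod n → ℤ × ℤ) (S : Finset Final.Tri) : sg p S = 1 ∨ sg p S = -1 := by
  unfold sg
  split_ifs
  · exact Or.inl rfl
  · exact Or.inr rfl

theorem sg_pos (h : Pos p S) : sg p S = 1 := if_pos h
theorem sg_neg (h : ¬ Pos p S) : sg p S = -1 := if_neg h

theorem sg_sq (p : ZMod n → ℤ × ℤ) (S : Finset Final.Tri) : sg p S * sg p S = 1 := by
  rcases sg_cases p S with h | h <;> rw [h] <;> norm_num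

theorem sg_mul_sg (p : ZMod n → ℤ × ℤ) (S : Finset Final.Tri) (a : ℤ) :
    sg p S * (sg p S * a) = a := by
  rw [← mul_assoc, sg_sq, one_mul]

theorem Mn_pos (h : Pos p S) : Mn p k S = {v | ∃ i, p i = v ∧ k ≤ i.val} := if_pos h
theorem Mn_neg (h : ¬ Pos p S) : Mn p k S = {v | ∃ i, p i = v ∧ i.val < k} := if_neg h

theorem Mn_sub : Mn p k S ⊆ range p := by
  by_cases h : Pos p S
  · rw [Mn_pos h]
    rintro v ⟨i, rfl, -⟩
    exact mem_range_self i
  · rw [Mn_neg h]
    rintro v ⟨i, rfl, -⟩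
    exact mem_range_self i

/-- The data at the vertices of the polygon. -/
theorem eta_p (hp : Final.IsPolygon p) (i : ZMod n) :
    eta (Mn p k S) (p i) = sg p S * (if i.val < k then 1 else -1) := by
  by_cases h : Pos p S
  · have hm : p i ∈ Mn p k S ↔ k ≤ i.val := by
      rw [Mn_pos h]
      constructor
      · rintro ⟨j, hj, hk⟩
        rwa [← hp.2.1 hj]
      · intro hk
        exact ⟨i, rfl, hk⟩
    rw [sg_pos h, one_mul]
    by_cases hk : i.val < k
    · rw [if_pos hk, INTF.eta_not (fun hc => absurd (hm.1 hc) (not_le.2 hk))]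
    · rw [if_neg hk, INTF.eta_mem (hm.2 (not_lt.1 hk))]
  · have hm : p i ∈ Mn p k S ↔ i.val < k := by
      rw [Mn_neg h]
      constructor
      · rintro ⟨j, hj, hk⟩
        rwa [← hp.2.1 hj]
      · intro hk
        exact ⟨i, rfl, hk⟩
    rw [sg_neg h]
    by_cases hk : i.val < k
    · rw [if_pos hk, INTF.eta_mem (hm.2 hk)]
      norm_num
    · rw [if_neg hk, INTF.eta_not (fun hc => hk (hm.1 hc))]
      norm_num

theorem eta_off (hp : Final.IsPolygon p) (hS : Final.Encloses p S) {v : ℤ × ℤ}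
    (hv : v ∉ Final.verts S) : eta (Mn p k S) v = 1 := by
  refine INTF.eta_not fun hc => ?_
  obtain ⟨i, rfl⟩ := Mn_sub hc
  exact hv (dl_poly (polyF hp) (enclF hS) i)

theorem exists_p {v : ℤ × ℤ} (hv : v ∈ Final.verts S) (hi : v ∉ inn p S) : ∃ i, p i = v := by
  by_contra hc
  push Not at hc
  exact hi (mem_inn.2 ⟨hv, hc⟩)

/-- Back from the signed heights. -/
noncomputable def bk (p : ZMod n → ℤ × ℤ) (S : Finset Final.Tri) (g : Hg) : Hg := fun v =>
  if v ∈ Final.verts S then sg p S * g v else 0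

theorem sh_in {h : Hg} {v : ℤ × ℤ} (hv : v ∈ Final.verts S) : sh p S h v = sg p S * h v :=
  if_pos hv

theorem sh_out {h : Hg} {v : ℤ × ℤ} (hv : v ∉ Final.verts S) : sh p S h v = 1 := if_neg hv

theorem bk_sh {h : Hg} (hh : h ∈ Heights p k S) : bk p S (sh p S h) = h := by
  funext v
  unfold bk
  by_cases hv : v ∈ Final.verts S
  · rw [if_pos hv, sh_in hv, sg_mul_sg]
  · rw [if_neg hv]
    exact (hh.2.2.2 v hv).symm

theorem sh_mem (hp : Final.IsPolygon p) (hS : Final.Encloses p S) {h : Hg}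
    (hh : h ∈ Heights p k S) : sh p S h ∈ Cs p k S := by
  obtain ⟨h1, h2, h3, h4⟩ := hh
  refine mem_CA.2 ⟨fun v => ?_, fun v hv => ?_, fun v hv w hvw => ?_⟩
  · by_cases hv : v ∈ Final.verts S
    · rw [sh_in hv]
      rcases sg_cases p S with e | e <;> rw [e]
      · rw [one_mul]; exact h1 v hv
      · rw [neg_one_mul]; exact (h1 v hv).neg
    · rw [sh_out hv]; exact odd_one
  · by_cases hv' : v ∈ Final.verts S
    · obtain ⟨i, rfl⟩ := exists_p hv' hv
      rw [sh_in hv', eta_p hp, h2]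
    · rw [sh_out hv', eta_off hp hS hv']
  · have hv' : v ∈ Final.verts S := (mem_inn.1 hv).1
    have hw : w ∈ Final.verts S := dl_nbr (enclF hS) hv hvw
    have h5 := h3 v hv' w hw (adjF.2 hvw)
    rw [sh_in hv', sh_in hw, ← mul_sub, abs_mul]
    have : |sg p S| = 1 := by rcases sg_cases p S with e | e <;> rw [e] <;> norm_num
    rw [this, one_mul]
    exact h5

theorem bk_mem (hp : Final.IsPolygon p) (hS : Final.Encloses p S) {g : Hg}
    (hg : g ∈ Cs p k S) : bk p S g ∈ Heights p k S := by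
  obtain ⟨h1, h2, h3⟩ := mem_CA.1 hg
  have hb : ∀ v, v ∈ Final.verts S → bk p S g v = sg p S * g v := fun v hv => if_pos hv
  have habs : |sg p S| = 1 := by rcases sg_cases p S with e | e <;> rw [e] <;> norm_num
  have hpi : ∀ i, p i ∈ Final.verts S := fun i => dl_poly (polyF hp) (enclF hS) i
  have hpn : ∀ i, p i ∉ inn p S := fun i hc => (mem_inn.1 hc).2 i rfl
  refine ⟨fun v hv => ?_, fun i => ?_, fun v hv w hw hvw => ?_, fun v hv => if_neg hv⟩
  · rw [hb v hv]
    rcases sg_cases p S with e | e <;> rw [e]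
    · rw [one_mul]; exact h1 v
    · rw [neg_one_mul]; exact (h1 v).neg
  · rw [hb _ (hpi i), h2 _ (hpn i), eta_p hp, sg_mul_sg]
  · rw [hb v hv, hb w hw, ← mul_sub, abs_mul, habs, one_mul]
    by_cases hv1 : v ∈ inn p S
    · exact h3 v hv1 w (adjF.1 hvw)
    · by_cases hw1 : w ∈ inn p S
      · rw [abs_sub_comm]
        refine h3 w hw1 v ?_
        exact Topo.adj_symm (adjF.1 hvw)
      · rw [h2 v hv1, h2 w hw1]
        rcases INTF.eta_or (Mn p k S) v with e | e <;> rcases INTF.eta_or (Mn p k S) w with e' | e' <;>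
          rw [e, e'] <;> norm_num

theorem sh_bk (hp : Final.IsPolygon p) (hS : Final.Encloses p S) {g : Hg}
    (hg : g ∈ Cs p k S) : sh p S (bk p S g) = g := by
  funext v
  by_cases hv : v ∈ Final.verts S
  · rw [sh_in hv]
    unfold bk
    rw [if_pos hv, sg_mul_sg]
  · rw [sh_out hv, (mem_CA.1 hg).2.1 v (fun hc => hv (mem_inn.1 hc).1), eta_off hp hS hv]

theorem sh_bij (hp : Final.IsPolygon p) (hS : Final.Encloses p S) :
    BijOn (sh p S) (Heights p k S) (Cs p k S) := by
  refine ⟨fun h hh => sh_mem hp hS hh, fun h hh h' hh' he => ?_, fun g hg => ?_⟩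
  · rw [← bk_sh hh, ← bk_sh hh', he]
  · exact ⟨bk p S g, bk_mem hp hS hg, sh_bk hp hS hg⟩

/-- The law of the heights in terms of the signed heights. -/
theorem mean_law (hp : Final.IsPolygon p) (hS : Final.Encloses p S) (f : Hg → ℝ) :
    mean (law p k S) f = Ex (Cs p k S) fun g => f (bk p S g) := by
  rw [(FLDI.lawF_spec hp hS k).2.2 f, ← FLDI.heightsF, Ex_bij (sh p S) (sh_bij hp hS)]
  refine Ex_congr fun h hh => ?_
  rw [bk_sh hh]

theorem Cs_finite : (Cs p k S).Finite := INTF.CA_finite (Finset.finite_toSet _)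

theorem Cs_nonempty (hp : Final.IsPolygon p) (hS : Final.Encloses p S) :
    (Cs p k S).Nonempty := by
  obtain ⟨h, hh⟩ := F.Dom.Arcs.heightsB_ne (polyF hp) (enclF hS) (FLDI.xi_pm (n := n) k)
  rw [← FLDI.heightsF] at hh
  exact ⟨_, sh_mem hp hS hh⟩

/-! ### The start state -/

theorem val_zero (hp : Final.IsPolygon p) : (0 : ZMod n).val = 0 := ZMod.val_zero

theorem val_neg_one (hp : Final.IsPolygon p) : (-1 : ZMod n).val = n - 1 := by
  have h2 := hp.1
  obtain ⟨m, rfl⟩ : ∃ m, n = m + 1 := ⟨n - 1, by omega⟩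
  rw [ZMod.val_neg_one]
  rfl

theorem st_adj (hp : Final.IsPolygon p) : Adj (st p S).1 (st p S).2 := by
  have h1 : Adj (p (-1)) (p 0) := by
    have := (polyF hp).2.2 (-1)
    rwa [neg_add_cancel] at this
  unfold st
  split_ifs
  · exact Topo.adj_symm h1
  · exact h1

/-- The signs at the start state. -/
theorem st_good (hp : Final.IsPolygon p) (hS : Final.Encloses p S) (hk : 0 < k) (hkn : k < n)
    {h : Hg} (hh : h ∈ Cs p k S) : Good h (st p S) := by
  have hpn : ∀ i, p i ∉ inn p S := fun i hc => (mem_inn.1 hc).2 i rfl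
  have h2 := (mem_CA.1 hh).2.1
  have e0 : h (p 0) = sg p S := by
    rw [h2 _ (hpn 0), eta_p hp, val_zero hp, if_pos hk, mul_one]
  have e1 : h (p (-1)) = - sg p S := by
    rw [h2 _ (hpn (-1)), eta_p hp, val_neg_one hp, if_neg (by omega), mul_neg, mul_one]
  refine ⟨st_adj hp, ?_⟩
  unfold st
  by_cases hP : Pos p S
  · rw [if_pos hP]
    simp only
    rw [e0, e1, sg_pos hP]
    norm_num
  · rw [if_neg hP]
    simp only
    rw [e0, e1, sg_neg hP]
    norm_num

theorem NZ_Cs {h : Hg} (hh : h ∈ Cs p k S) : INTF.NZ h S := INTF.CA.nz hh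

/-! ### The two sides of the first edge -/

theorem isEdge_comm {a b : ℤ × ℤ} (h : Final.IsEdge p a b) : Final.IsEdge p b a := by
  obtain ⟨i, hi | hi⟩ := h
  · exact ⟨i, Or.inr hi⟩
  · exact ⟨i, Or.inl hi⟩

/-- The faces ahead and behind are the two sides of the edge. -/
theorem side_iff (hS : Final.Encloses p S) {s : St} (ha : Adj s.1 s.2) :
    Final.IsEdge p s.1 s.2 ↔ ¬ (fa s ∈ S ↔ fb s ∈ S) := by
  obtain ⟨a, b, h | h | h | h | h | h⟩ := INTF.st_cases ha
  · subst h
    have h1 := (hS (a, b)).1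
    unfold Final.Side at h1
    simp only [fa, fb, Prod.mk_sub_mk, Prod.mk_add_mk] at h1 ⊢
    norm_num at h1 ⊢
    rw [show Final.IsEdge p (a + 1, b) (a, b) ↔ Final.IsEdge p (a, b) (a + 1, b) from
      ⟨isEdge_comm, isEdge_comm⟩, h1]
    tauto
  · subst h
    have h1 := (hS (a, b)).2.1
    unfold Final.Side at h1
    simp only [fa, fb, Prod.mk_sub_mk, Prod.mk_add_mk] at h1 ⊢
    norm_num at h1 ⊢
    rw [show Final.IsEdge p (a, b + 1) (a, b) ↔ Final.IsEdge p (a, b) (a, b + 1) from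
      ⟨isEdge_comm, isEdge_comm⟩, h1]
  · subst h
    have h1 := (hS (a - 1, b)).2.2
    unfold Final.Side at h1
    simp only [fa, fb, Prod.mk_sub_mk, Prod.mk_add_mk] at h1 ⊢
    norm_num at h1 ⊢
    rw [show Final.IsEdge p (a - 1, b + 1) (a, b) ↔ Final.IsEdge p (a, b) (a - 1, b + 1) from
      ⟨isEdge_comm, isEdge_comm⟩, h1]
    tauto
  · subst h
    have h1 := (hS (a - 1, b)).1
    unfold Final.Side at h1
    simp only [fa, fb, Prod.mk_sub_mk, Prod.mk_add_mk] at h1 ⊢
    norm_num at h1 ⊢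
    rw [h1]
  · subst h
    have h1 := (hS (a, b - 1)).2.1
    unfold Final.Side at h1
    simp only [fa, fb, Prod.mk_sub_mk, Prod.mk_add_mk] at h1 ⊢
    norm_num at h1 ⊢
    rw [h1]
    tauto
  · subst h
    have h1 := (hS (a, b - 1)).2.2
    unfold Final.Side at h1
    simp only [fa, fb, Prod.mk_sub_mk, Prod.mk_add_mk] at h1 ⊢
    norm_num at h1 ⊢
    rw [h1]

theorem st_edge : Final.IsEdge p (st p S).1 (st p S).2 := by
  have h : Final.IsEdge p (p (-1)) (p 0) := ⟨-1, Or.inl ⟨rfl, by rw [neg_add_cancel]⟩⟩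
  unfold st
  split_ifs
  · exact isEdge_comm h
  · exact h

theorem st_face (hp : Final.IsPolygon p) (hS : Final.Encloses p S) :
    fa (st p S) ∈ S ∧ fb (st p S) ∉ S := by
  have h1 := (side_iff hS (st_adj (S := S) hp)).1 st_edge
  by_cases hP : Pos p S
  · have h2 : fa (st p S) ∈ S := by
      unfold st
      rw [if_pos hP]
      exact hP
    exact ⟨h2, fun hc => h1 ⟨fun _ => hc, fun _ => h2⟩⟩
  · have h2 : fb (st p S) ∉ S := by
      unfold st fb
      rw [if_neg hP]
      exact hP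
    refine ⟨?_, h2⟩
    by_contra hc
    exact h1 ⟨fun h => absurd h hc, fun h => absurd h h2⟩

/-- The exit of the interface. -/
theorem nu_spec (hp : Final.IsPolygon p) (hS : Final.Encloses p S) (hk : 0 < k) (hkn : k < n)
    {h : Hg} (hh : h ∈ Cs p k S) :
    INTF.Alive h S (st p S) (nu p S h) ∧ fa (ru p S h (nu p S h)) ∉ S :=
  INTF.len_spec (NZ_Cs hh) (st_good hp hS hk hkn hh) (st_face hp hS).2

theorem nu_pos (hp : Final.IsPolygon p) (hS : Final.Encloses p S) (hk : 0 < k) (hkn : k < n)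
    {h : Hg} (hh : h ∈ Cs p k S) : 0 < nu p S h := by
  rcases Nat.eq_zero_or_pos (nu p S h) with h0 | h0
  · have := (nu_spec hp hS hk hkn hh).2
    rw [h0] at this
    exact absurd (st_face hp hS).1 this
  · exact h0

theorem nu_stop (hp : Final.IsPolygon p) (hS : Final.Encloses p S) (hk : 0 < k) (hkn : k < n) :
    StopIx (Cs p k S) S (st p S) (nu p S) := by
  intro h hh h' hh' ha
  obtain ⟨a1, a2⟩ := nu_spec hp hS hk hkn hh
  obtain ⟨b1, b2⟩ := nu_spec hp hS hk hkn hh'
  rcases lt_trichotomy (nu p S h') (nu p S h) with h1 | h1 | h1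
  · exfalso
    have e := ha _ h1.le
    unfold ru at b2
    rw [e] at b2
    exact b2 (a1 _ h1)
  · exact h1
  · exfalso
    have e := ha _ le_rfl
    have := b1 _ h1
    rw [e] at this
    exact a2 this

end Vale.Agent.P153.R2.DRV
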