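import Vale.Agent.P153.R2.DRV.Bridge

/-!
# P153, block DRV: the polygonal curve and its image in the half-plane
-/

set_option autoImplicit false
set_option linter.unusedVariables false

open MeasureTheory ProbabilityTheory Filter Topology Set
open scoped NNReal ENNReal

namespace Vale.Agent.P153.R2.DRV

open Vale.Agent.P153.R2.Final Vale.Agent.P153.R2.UNIQ
open Vale.Agent.P153.R2.INTF (St run fa fb StopIx StopMeas Fk Rk len eta mem_CA Good)
open Vale.Agent.P153.R2.FLDI (inn mem_inn polyF enclF adjF)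
open Vale.Agent.P153.R2.L2 (Crv gg cc ww drv tau)
open Vale.Agent.P153.R2.L2.Crv (drvT)

/-! ### The inverse of a map which is continuous up to the boundary -/

/-- Inverses of continuous injective maps of closed sets, with a limit at infinity which is not a
value, are continuous. -/
theorem inv_cont {ψ : ℂ → ℂ} {A : Set ℂ} (hA : IsClosed A) (hc : ContinuousOn ψ A)
    (hi : InjOn ψ A) {b : ℂ} (hinf : Tendsto ψ (Bornology.cobounded ℂ ⊓ 𝓟 A) (𝓝 b))
    (hne : ∀ z ∈ A, ψ z ≠ b) : ContinuousOn (Function.invFunOn ψ A) (ψ '' A) := by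
  rintro _ ⟨z, hz, rfl⟩
  have hinv : ∀ y ∈ ψ '' A, Function.invFunOn ψ A y ∈ A ∧ ψ (Function.invFunOn ψ A y) = y := by
    intro y hy
    exact ⟨Function.invFunOn_mem hy, Function.invFunOn_eq hy⟩
  have hz' : Function.invFunOn ψ A (ψ z) = z := by
    obtain ⟨h1, h2⟩ := hinv _ (mem_image_of_mem ψ hz)
    exact hi h1 hz h2
  unfold ContinuousWithinAt
  rw [hz', tendsto_iff_ultrafilter]
  intro g hg
  set u := g.map (Function.invFunOn ψ A) with hu
  have hgA : ψ '' A ∈ (g : Filter ℂ) := hg self_mem_nhdsWithin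
  have huA : A ∈ (u : Filter ℂ) := by
    rw [hu, Ultrafilter.coe_map, Filter.mem_map]
    filter_upwards [hgA] with y hy using (hinv y hy).1
  have hψu : Tendsto ψ (u : Filter ℂ) (𝓝 (ψ z)) := by
    rw [hu, Ultrafilter.coe_map, Filter.tendsto_map'_iff]
    have h1 : Tendsto (fun y : ℂ => y) (g : Filter ℂ) (𝓝 (ψ z)) :=
      hg.trans nhdsWithin_le_nhds
    refine h1.congr' ?_
    filter_upwards [hgA] with y hy using (hinv y hy).2.symm
  change (u : Filter ℂ) ≤ 𝓝 z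
  by_cases hb : ∃ M : ℝ, Metric.closedBall (0 : ℂ) M ∈ (u : Filter ℂ)
  · obtain ⟨M, hM⟩ := hb
    have hcpt : IsCompact (Metric.closedBall (0 : ℂ) M ∩ A) :=
      (isCompact_closedBall 0 M).inter_right hA
    obtain ⟨z', hz'1, hz'2⟩ := hcpt.ultrafilter_le_nhds u (le_principal_iff.2 (inter_mem hM huA))
    have h1 : Tendsto ψ (u : Filter ℂ) (𝓝 (ψ z')) := by
      have h2 : (u : Filter ℂ) ≤ 𝓝[A] z' := by
        rw [nhdsWithin]
        exact le_inf hz'2 (le_principal_iff.2 huA)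
      exact (hc z' hz'1.2).mono_left h2
    have h2 := tendsto_nhds_unique h1 hψu
    rw [← hi hz'1.2 hz h2]
    exact hz'2
  · push Not at hb
    exfalso
    have h1 : (u : Filter ℂ) ≤ Bornology.cobounded ℂ := by
      intro s hs
      rw [← compl_compl s] at hs ⊢
      have h2 : Bornology.IsBounded sᶜ := by
        rw [Bornology.isBounded_def]
        exact hs
      obtain ⟨M, hM⟩ := h2.subset_closedBall 0
      have h3 := hb M
      rw [Ultrafilter.mem_coe, ← Ultrafilter.compl_mem_iff_notMem] at h3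
      exact mem_of_superset h3 (compl_subset_compl.2 hM)
    have h2 : Tendsto ψ (u : Filter ℂ) (𝓝 b) :=
      hinf.mono_left (le_inf h1 (le_principal_iff.2 huA))
    exact hne z hz (tendsto_nhds_unique hψu h2)

/-! ### The polygonal curve -/

theorem pl_eq {δ : ℝ} {ρ : ℕ → St} (m : ℕ) {t : ℝ} (h0 : (m : ℝ) ≤ t) (h1 : t ≤ m + 1) :
    pl δ ρ t = ((1 - (t - m) : ℝ) : ℂ) * mid δ (ρ m).1 (ρ m).2 +
      ((t - m : ℝ) : ℂ) * mid δ (ρ (m + 1)).1 (ρ (m + 1)).2 := by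
  rcases h1.lt_or_eq with h1 | h1
  · have : ⌊t⌋₊ = m := Nat.floor_eq_on_Ico m t ⟨h0, h1⟩
    unfold pl
    rw [this]
  · have : ⌊t⌋₊ = m + 1 := by
      rw [h1]
      exact_mod_cast Nat.floor_natCast (R := ℝ) (m + 1)
    unfold pl
    rw [this, h1]
    push_cast
    ring

theorem pl_nat {δ : ℝ} {ρ : ℕ → St} (m : ℕ) : pl δ ρ m = mid δ (ρ m).1 (ρ m).2 := by
  rw [pl_eq m le_rfl (by linarith)]
  simp

theorem pl_cont_Icc (δ : ℝ) (ρ : ℕ → St) (m : ℕ) : ContinuousOn (pl δ ρ) (Icc 0 (m : ℝ)) := by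
  induction m with
  | zero =>
    rw [Nat.cast_zero, Icc_self]
    exact continuousOn_singleton _ _
  | succ m ih =>
    have h1 : ContinuousOn (pl δ ρ) (Icc (m : ℝ) (m + 1)) := by
      refine ContinuousOn.congr (f := fun t : ℝ => ((1 - (t - m) : ℝ) : ℂ) *
        mid δ (ρ m).1 (ρ m).2 + ((t - m : ℝ) : ℂ) * mid δ (ρ (m + 1)).1 (ρ (m + 1)).2)
        (by fun_prop) fun t ht => pl_eq m ht.1 ht.2
    have h2 : Icc (0 : ℝ) ((m + 1 : ℕ) : ℝ) = Icc 0 (m : ℝ) ∪ Icc (m : ℝ) (m + 1) := by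
      rw [Icc_union_Icc_eq_Icc (Nat.cast_nonneg m) (by linarith)]
      push_cast
      rfl
    rw [h2]
    exact ih.union_of_isClosed h1 isClosed_Icc isClosed_Icc

theorem pl_cont (δ : ℝ) (ρ : ℕ → St) : ContinuousOn (pl δ ρ) (Ici 0) := by
  intro t ht
  obtain ⟨m, hm⟩ := exists_nat_gt t
  have h1 := pl_cont_Icc δ ρ m t ⟨ht, hm.le⟩
  refine h1.mono_of_mem_nhdsWithin ?_
  rw [mem_nhdsWithin]
  exact ⟨Iio (m : ℝ), isOpen_Iio, hm, fun s hs => ⟨hs.2, hs.1.le⟩⟩

theorem pl_congr {δ : ℝ} {ρ ρ' : ℕ → St} {m : ℕ} (h : ∀ j ≤ m, ρ' j = ρ j) {t : ℝ} (h0 : 0 ≤ t)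
    (ht : t ≤ m) : pl δ ρ' t = pl δ ρ t := by
  rcases ht.lt_or_eq with h1 | h1
  · have h2 : ⌊t⌋₊ < m := (Nat.floor_lt h0).2 h1
    unfold pl
    rw [h _ h2.le, h _ h2]
  · rw [h1, pl_nat, pl_nat, h m le_rfl]

/-! ### The curve in the half-plane -/

/-- What is needed about the polygonal curve. -/
structure Can {n : ℕ} (p : ZMod n → ℤ × ℤ) (k : ℕ) (S : Finset Final.Tri) (δ : ℝ) (g : Hg) :
    Prop where
  pos : 0 < nu p S g
  start : pl δ (ru p S g) 0 = mid δ (p (-1)) (p 0)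
  fin : pl δ (ru p S g) (nu p S g) = bptD p k δ
  inj : InjOn (pl δ (ru p S g)) (Icc 0 (nu p S g : ℝ))
  inter : ∀ t ∈ Ioo 0 (nu p S g : ℝ), pl δ (ru p S g) t ∈ toC '' interior (region δ S)

variable {n k : ℕ} {p : ZMod n → ℤ × ℤ} {S : Finset Final.Tri} {δ : ℝ} {ψ : ℂ → ℂ}

theorem can_of (hC : S_can) (hδ : 0 < δ) (hk : 0 < k) (hkn : k < n) (hp : Final.IsPolygon p)
    (hS : Final.Encloses p S) {g : Hg} (hg : g ∈ Cs p k S) : Can p k S δ g := by
  obtain ⟨h1, h2, h3, h4, h5, -⟩ := hC n k p S δ hδ hk hkn hp hS _ (bk_mem hp hS hg)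
  rw [sh_bk hp hS hg] at h1 h2 h3 h4 h5
  exact ⟨h1, h2, h3, h4, h5⟩

/-- The closed half-plane. -/
def HB : Set ℂ := {z | 0 ≤ z.im}

theorem isClosed_HB : IsClosed HB := isClosed_le continuous_const Complex.continuous_im

section

variable {g : Hg} (hU : IsUnifD p k S δ ψ) (hg : Can p k S δ g)
include hU hg

/-- The curve stays in the image of the closed half-plane before the end. -/
theorem pl_mem {t : ℝ} (h0 : 0 ≤ t) (ht : t < nu p S g) : pl δ (ru p S g) t ∈ ψ '' HB := by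
  rcases h0.eq_or_lt with h1 | h1
  · rw [← h1, hg.start, ← hU.zero]
    exact mem_image_of_mem _ (by simp [HB])
  · have h2 := hg.inter t ⟨h1, ht⟩
    rw [← hU.image] at h2
    obtain ⟨z, hz, hzt⟩ := h2
    have hz' : (0 : ℝ) < z.im := hz
    exact ⟨z, hz'.le, hzt⟩

theorem et_mem {t : ℝ} (h0 : 0 ≤ t) (ht : t < nu p S g) : et ψ δ p S g t ∈ HB :=
  Function.invFunOn_mem (pl_mem hU hg h0 ht)

theorem psi_et {t : ℝ} (h0 : 0 ≤ t) (ht : t < nu p S g) :
    ψ (et ψ δ p S g t) = pl δ (ru p S g) t :=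
  Function.invFunOn_eq (pl_mem hU hg h0 ht)

theorem et_zero : et ψ δ p S g 0 = 0 := by
  have hpos : (0 : ℝ) < nu p S g := by exact_mod_cast hg.pos
  have h1 := psi_et hU hg le_rfl hpos
  rw [hg.start, ← hU.zero] at h1
  exact hU.injOn (et_mem hU hg le_rfl hpos) (by simp) h1

theorem et_im {t : ℝ} (h0 : 0 < t) (ht : t < nu p S g) : 0 < (et ψ δ p S g t).im := by
  have h2 := hg.inter t ⟨h0, ht⟩
  rw [← hU.image] at h2
  obtain ⟨z, hz, hzt⟩ := h2
  have hz' : (0 : ℝ) < z.im := hz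
  have h1 := psi_et hU hg h0.le ht
  rw [← hzt] at h1
  rw [hU.injOn (et_mem hU hg h0.le ht) hz'.le h1]
  exact hz'

theorem et_cont : ContinuousOn (et ψ δ p S g) (Ico 0 (nu p S g : ℝ)) := by
  have h1 := inv_cont (A := HB) isClosed_HB hU.cont hU.injOn hU.inf hU.ne
  refine h1.comp ((pl_cont δ (ru p S g)).mono fun t ht => ht.1) fun t ht => ?_
  exact pl_mem hU hg ht.1 ht.2

theorem et_inj : InjOn (et ψ δ p S g) (Ico 0 (nu p S g : ℝ)) := by
  intro s hs t ht he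
  have h1 := psi_et hU hg hs.1 hs.2
  have h2 := psi_et hU hg ht.1 ht.2
  rw [he, h2] at h1
  exact (hg.inj ⟨ht.1, ht.2.le⟩ ⟨hs.1, hs.2.le⟩ h1).symm

/-- **The curve in the half-plane is a simple curve.** -/
theorem crv : Crv (et ψ δ p S g) (nu p S g) where
  pos := by exact_mod_cast hg.pos
  cont := et_cont hU hg
  inj := et_inj hU hg
  start := by rw [et_zero hU hg, Complex.zero_im]
  im_pos := fun t ht => et_im hU hg ht.1 ht.2

end

end Vale.Agent.P153.R2.DRV
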