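import Vale.Agent.P153.R2.DRV.Curve
import Vale.Agent.P153.R2.M1.Fin

/-!
# P153, block DRV: the interfaces as finite explorations
-/

set_option autoImplicit false
set_option linter.unusedVariables false

open MeasureTheory ProbabilityTheory Filter Topology Set
open scoped NNReal ENNReal

namespace Vale.Agent.P153.R2.DRV

open Vale.Agent.P153.R2.Final Vale.Agent.P153.R2.UNIQ
open Vale.Agent.P153.R2.INTF (St run fa fb StopIx StopMeas Fk Rk len eta mem_CA Good)
open Vale.Agent.P153.R2.FLDI (inn mem_inn polyF enclF adjF)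
open Vale.Agent.P153.R2.L2 (Crv gg cc ww drv tau)
open Vale.Agent.P153.R2.L2.Crv (drvT)

/-! ### The driver along a simple curve -/

section Crv

variable {γ γ' : ℝ → ℂ} {T T' : ℝ}

theorem drvT_cc (h : Crv γ T) {t t₁ : ℝ} (h0 : 0 ≤ t) (ht : t ≤ t₁) (ht₁ : t₁ < T) :
    drvT γ T t₁ (cc γ t) = ww γ t := by
  have htT : t ∈ Ico 0 T := ⟨h0, ht.trans_lt ht₁⟩
  rw [L2.Crv.drvT_eq (h.cap_nonneg htT)
    (h.strictMono.monotoneOn htT ⟨h0.trans ht, ht₁⟩ ht), h.drv_cc htT]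

theorem ww_cont (h : Crv γ T) : ContinuousOn (ww γ) (Ico 0 T) := by
  intro t ht
  set t₂ := (t + T) / 2 with ht₂
  have h1 : t < t₂ := by rw [ht₂]; linarith [ht.2]
  have h2 : t₂ < T := by rw [ht₂]; linarith [ht.2]
  have h3 : ContinuousOn (ww γ) (Icc 0 t₂) := by
    have h4 : ContinuousOn (fun s => drvT γ T t₂ (cc γ s)) (Icc 0 t₂) :=
      (h.continuous_drvT ⟨ht.1.trans h1.le, h2⟩).comp_continuousOn
        (h.cap_cont.mono fun s hs => ⟨hs.1, hs.2.trans_lt h2⟩)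
    exact h4.congr fun s hs => (drvT_cc h hs.1 hs.2 h2).symm
  refine (h3 t ⟨ht.1, h1.le⟩).mono_of_mem_nhdsWithin ?_
  rw [mem_nhdsWithin]
  exact ⟨Iio t₂, isOpen_Iio, h1, fun s hs => ⟨hs.2.1, hs.1.le⟩⟩

theorem ww_zero (h : Crv γ T) : (ww γ 0 : ℂ) = γ 0 := by
  rw [← h.drv_zero]
  have := h.drv_cc (t := 0) ⟨le_rfl, h.pos⟩
  rw [h.cap_zero] at this
  rw [this]

theorem gg_congr {t : ℝ} (he : ∀ s ∈ Icc 0 t, γ' s = γ s) : gg γ' t = gg γ t := by
  have h1 : γ' '' Icc 0 t = γ '' Icc 0 t := image_congr he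
  unfold L2.gg
  rw [h1]

theorem cc_congr {t : ℝ} (he : ∀ s ∈ Icc 0 t, γ' s = γ s) : cc γ' t = cc γ t := by
  unfold L2.cc
  rw [gg_congr he]

theorem ww_congr_lt {s t : ℝ} (hst : s < t) (he : ∀ u ∈ Icc 0 t, γ' u = γ u) (hs : 0 ≤ s) :
    ww γ' s = ww γ s := by
  unfold L2.ww
  rw [gg_congr fun u hu => he u ⟨hu.1, hu.2.trans hst.le⟩]
  congr 1
  unfold limUnder
  congr 1
  refine Filter.map_congr ?_
  filter_upwards [Ioo_mem_nhdsGT hst] with u hu
  rw [he u ⟨hs.trans hu.1.le, hu.2.le⟩]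

/-- The driver depends only on the past. -/
theorem ww_congr (h : Crv γ T) (h' : Crv γ' T') {t : ℝ} (h0 : 0 ≤ t) (ht : t < T) (ht' : t < T')
    (he : ∀ u ∈ Icc 0 t, γ' u = γ u) : ww γ' t = ww γ t := by
  rcases h0.eq_or_lt with h0 | h0
  · have h1 := ww_zero h
    have h2 := ww_zero h'
    rw [← h0]
    have h3 := he 0 ⟨le_rfl, h0.le⟩
    rw [h3, ← h1] at h2
    exact_mod_cast h2
  · have hne : (𝓝[<] t).NeBot := inferInstance
    have a1 : Tendsto (ww γ) (𝓝[<] t) (𝓝 (ww γ t)) := by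
      refine (ww_cont h t ⟨h0.le, ht⟩).mono_left ?_
      rw [← nhdsWithin_Ioo_eq_nhdsLT h0]
      exact nhdsWithin_mono _ fun s hs => ⟨hs.1.le, hs.2.trans ht⟩
    have a2 : Tendsto (ww γ') (𝓝[<] t) (𝓝 (ww γ' t)) := by
      refine (ww_cont h' t ⟨h0.le, ht'⟩).mono_left ?_
      rw [← nhdsWithin_Ioo_eq_nhdsLT h0]
      exact nhdsWithin_mono _ fun s hs => ⟨hs.1.le, hs.2.trans ht'⟩
    refine tendsto_nhds_unique (a2.congr' ?_) a1
    filter_upwards [Ioo_mem_nhdsLT h0] with s hs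
    exact ww_congr_lt hs.2 he hs.1.le

end Crv

/-! ### The exploration -/

variable {n k : ℕ} {p : ZMod n → ℤ × ℤ} {S : Finset Final.Tri} {δ : ℝ} {ψ : ℂ → ℂ}

/-- The parameter time of step `j` (the last step is cut in the middle). -/
noncomputable def sj (p : ZMod n → ℤ × ℤ) (S : Finset Final.Tri) (g : Hg) (j : ℕ) : ℝ :=
  min (j : ℝ) (nu p S g - 1 / 2)

open Classical in
/-- The driver, frozen in the middle of the last step. -/
noncomputable def wf (ψ : ℂ → ℂ) (δ : ℝ) (p : ZMod n → ℤ × ℤ) (S : Finset Final.Tri) (g : Hg) :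
    C(ℝ≥0, ℝ) :=
  if h : Continuous (drvT (et ψ δ p S g) (nu p S g) (nu p S g - 1 / 2)) then
    ⟨fun u => drvT (et ψ δ p S g) (nu p S g) (nu p S g - 1 / 2) u, h.comp NNReal.continuous_coe⟩
  else 0

/-- The exploration of the interface. -/
noncomputable def ex (ψ : ℂ → ℂ) (δ : ℝ) (p : ZMod n → ℤ × ℤ) (k : ℕ) (S : Finset Final.Tri) :
    M1.Expl Hg St where
  C := Cs p k S
  r := ru p S
  K := nu p S
  c := fun g j => cp ψ δ p S g (sj p S g j)
  w := wf ψ δ p S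

section

variable {g g' : Hg}

theorem sj_lt {j : ℕ} (h : j < nu p S g) : sj p S g j = j := by
  refine min_eq_left ?_
  have : (j : ℝ) + 1 ≤ nu p S g := by exact_mod_cast h
  linarith

theorem sj_nu : sj p S g (nu p S g) = nu p S g - 1 / 2 := min_eq_right (by linarith)

theorem sj_le (j : ℕ) : sj p S g j ≤ nu p S g - 1 / 2 := min_le_right _ _

theorem sj_le' (j : ℕ) : sj p S g j ≤ j := min_le_left _ _

theorem half_mem (h : 0 < nu p S g) : (nu p S g - 1 / 2 : ℝ) ∈ Ico 0 (nu p S g : ℝ) := by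
  have : (1 : ℝ) ≤ nu p S g := by exact_mod_cast h
  exact ⟨by linarith, by linarith⟩

theorem sj_mem (h : 0 < nu p S g) (j : ℕ) : sj p S g j ∈ Ico 0 (nu p S g : ℝ) :=
  ⟨le_min (Nat.cast_nonneg j) (half_mem h).1, (sj_le j).trans_lt (half_mem h).2⟩

theorem sj_mono {i j : ℕ} (h : i ≤ j) : sj p S g i ≤ sj p S g j :=
  min_le_min (by exact_mod_cast h) le_rfl

theorem wf_eq (hc : Crv (et ψ δ p S g) (nu p S g)) (hn : 0 < nu p S g) (u : ℝ≥0) :
    wf ψ δ p S g u = drvT (et ψ δ p S g) (nu p S g) (nu p S g - 1 / 2) u := by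
  have h : Continuous (drvT (et ψ δ p S g) (nu p S g) (nu p S g - 1 / 2)) :=
    hc.continuous_drvT (half_mem hn)
  unfold wf
  rw [dif_pos h]
  rfl

/-- The value of the driver at the capacity time of `t`. -/
theorem wf_cc (hc : Crv (et ψ δ p S g) (nu p S g)) (hn : 0 < nu p S g) {t : ℝ} (h0 : 0 ≤ t)
    (ht : t ≤ nu p S g - 1 / 2) : wf ψ δ p S g (cp ψ δ p S g t).toNNReal = wd ψ δ p S g t := by
  have htT : t ∈ Ico 0 (nu p S g : ℝ) := ⟨h0, ht.trans_lt (half_mem hn).2⟩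
  have h1 : 0 ≤ cp ψ δ p S g t := hc.cap_nonneg htT
  rw [wf_eq hc hn, Real.coe_toNNReal _ h1]
  exact drvT_cc hc h0 ht (half_mem hn).2

theorem V_eq (hc : Crv (et ψ δ p S g) (nu p S g)) (hn : 0 < nu p S g) (j : ℕ) :
    (ex ψ δ p k S).V g j = wd ψ δ p S g (sj p S g j) :=
  wf_cc hc hn (sj_mem hn j).1 (sj_le j)

theorem et_congr {m : ℕ} (h : ∀ j ≤ m, ru p S g' j = ru p S g j) {t : ℝ} (h0 : 0 ≤ t)
    (ht : t ≤ m) : et ψ δ p S g' t = et ψ δ p S g t := by
  unfold et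
  rw [pl_congr h h0 ht]

theorem ex_adc (hc : Crv (et ψ δ p S g) (nu p S g)) (hc' : Crv (et ψ δ p S g') (nu p S g'))
    (hn : 0 < nu p S g) (hn' : 0 < nu p S g') {j : ℕ} (h : ∀ i ≤ j, ru p S g' i = ru p S g i)
    (hsj : sj p S g' j = sj p S g j) :
    (ex ψ δ p k S).c g' j = (ex ψ δ p k S).c g j ∧
      (ex ψ δ p k S).V g' j = (ex ψ δ p k S).V g j := by
  have he : ∀ u ∈ Icc 0 (sj p S g j), et ψ δ p S g' u = et ψ δ p S g u :=
    fun u hu => et_congr h hu.1 (hu.2.trans (sj_le' j))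
  constructor
  · change cp ψ δ p S g' (sj p S g' j) = cp ψ δ p S g (sj p S g j)
    rw [hsj]
    exact cc_congr he
  · rw [V_eq hc hn, V_eq hc' hn', hsj]
    have h1 := sj_mem hn' j
    rw [hsj] at h1
    exact ww_congr hc hc' (sj_mem hn j).1 (sj_mem hn j).2 h1.2 he

end

/-- The exploration is well formed. -/
theorem ex_wf (hC : S_can) (hU : IsUnifD p k S δ ψ) (hδ : 0 < δ) (hk : 0 < k) (hkn : k < n)
    (hp : Final.IsPolygon p) (hS : Final.Encloses p S) : (ex ψ δ p k S).WF := by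
  have hcan : ∀ g ∈ Cs p k S, Can p k S δ g := fun g hg => can_of hC hδ hk hkn hp hS hg
  have hcrv : ∀ g ∈ Cs p k S, Crv (et ψ δ p S g) (nu p S g) := fun g hg => crv hU (hcan g hg)
  have hV : ∀ g ∈ Cs p k S, ∀ j, (ex ψ δ p k S).V g j = wd ψ δ p S g (sj p S g j) :=
    fun g hg j => V_eq (hcrv g hg) (hcan g hg).pos j
  constructor
  · exact Cs_finite
  · exact Cs_nonempty hp hS
  · exact fun g hg => (hcan g hg).pos
  · exact nu_stop hp hS hk hkn
  · intro g hg g' hg' j hj ha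
    refine ex_adc (hcrv g hg) (hcrv g' hg') (hcan g hg).pos (hcan g' hg').pos ha ?_
    have hst := nu_stop hp hS hk hkn
    rcases Nat.lt_or_ge j (nu p S g) with h1 | h1
    · have h2 : j < nu p S g' := by
        by_contra hc
        push Not at hc
        have := hst g' hg' g hg fun i hi => (ha i (hi.trans hc)).symm
        omega
      rw [sj_lt h1, sj_lt h2]
    · have h2 : j = nu p S g := le_antisymm hj h1
      have h3 : nu p S g' = nu p S g := hst g hg g' hg' fun i hi => ha i (hi.trans h1)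
      unfold sj
      rw [h3]
  · intro g hg
    change cp ψ δ p S g (sj p S g 0) = 0
    rw [sj_lt (hcan g hg).pos, Nat.cast_zero]
    exact (hcrv g hg).cap_zero
  · intro g hg
    have h1 := wf_cc (hcrv g hg) (hcan g hg).pos le_rfl (half_mem (hcan g hg).pos).1
    have h2 : cp ψ δ p S g 0 = 0 := (hcrv g hg).cap_zero
    rw [h2, Real.toNNReal_zero] at h1
    change wf ψ δ p S g 0 = 0
    rw [h1]
    have h3 := ww_zero (hcrv g hg)
    rw [et_zero hU (hcan g hg)] at h3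
    exact_mod_cast h3
  · intro g hg j _
    exact (hcrv g hg).strictMono.monotoneOn (sj_mem (hcan g hg).pos j)
      (sj_mem (hcan g hg).pos (j + 1)) (sj_mono (Nat.le_succ j))
  · intro g hg t ht
    rw [hV g hg]
    change wf ψ δ p S g t = wd ψ δ p S g (sj p S g (nu p S g))
    have ht' : cp ψ δ p S g (nu p S g - 1 / 2) ≤ t := by
      have : cp ψ δ p S g (sj p S g (nu p S g)) ≤ t := ht
      rwa [sj_nu] at this
    have h0 : 0 ≤ cp ψ δ p S g (nu p S g - 1 / 2) :=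
      (hcrv g hg).cap_nonneg (half_mem (hcan g hg).pos)
    rw [sj_nu, ← wf_cc (hcrv g hg) (hcan g hg).pos (half_mem (hcan g hg).pos).1 le_rfl,
      wf_eq (hcrv g hg) (hcan g hg).pos, wf_eq (hcrv g hg) (hcan g hg).pos,
      Real.coe_toNNReal _ h0]
    unfold L2.Crv.drvT
    have e1 : min (max (t : ℝ) 0) (cc (et ψ δ p S g) (nu p S g - 1 / 2)) =
        cc (et ψ δ p S g) (nu p S g - 1 / 2) := by
      rw [max_eq_left (NNReal.coe_nonneg t)]
      exact min_eq_right ht'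
    have e2 : min (max (cp ψ δ p S g (nu p S g - 1 / 2)) 0)
        (cc (et ψ δ p S g) (nu p S g - 1 / 2)) = cc (et ψ δ p S g) (nu p S g - 1 / 2) := by
      rw [max_eq_left h0]
      exact min_eq_left le_rfl
    rw [e1, e2]

end Vale.Agent.P153.R2.DRV
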