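import Vale.Agent.P153.R2.DRV.Expl
import Vale.Agent.P153.R2.HULL.Bounds

/-!
# P153, block DRV: small steps, and exit from the compact sets before the last step
-/

set_option autoImplicit false
set_option linter.unusedVariables false

open MeasureTheory ProbabilityTheory Filter Topology Set
open scoped NNReal ENNReal

namespace Vale.Agent.P153.R2.DRV

open Vale.Agent.P153.R2.Final Vale.Agent.P153.R2.UNIQ
open Vale.Agent.P153.R2.INTF (St run fa fb StopIx StopMeas Fk Rk len eta mem_CA Good)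
open Vale.Agent.P153.R2.FLDI (inn mem_inn polyF enclF adjF)
open Vale.Agent.P153.R2.L2 (Crv gg cc ww drv tau)
open Vale.Agent.P153.R2.L2.Crv (drvT)
open Vale.Agent.P164 (loewnerDomain)

/-! ### The last step is short -/

theorem pt_near {v w : ℤ × ℤ} (h : Adj v w) : ‖toC (Final.pt v) - toC (Final.pt w)‖ ≤ 2 := by
  have h3 : (0 : ℝ) ≤ √3 := Real.sqrt_nonneg _
  have h3' : √3 ≤ 2 := by
    rw [Real.sqrt_le_left (by norm_num)]
    norm_num
  have e : toC (Final.pt v) - toC (Final.pt w) =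
      ⟨((v.1 : ℝ) - w.1) + ((v.2 : ℝ) - w.2) / 2, √3 / 2 * ((v.2 : ℝ) - w.2)⟩ := by
    apply Complex.ext
    · simp only [toC, Final.pt, Complex.sub_re]
      ring
    · simp only [toC, Final.pt, Complex.sub_im]
      ring
  have key : |((v.1 : ℝ) - w.1) + ((v.2 : ℝ) - w.2) / 2| ≤ 1 ∧ |(v.2 : ℝ) - w.2| ≤ 1 := by
    obtain ⟨v1, v2⟩ := v
    obtain ⟨w1, w2⟩ := w
    have h' := Topo.adj_iff.1 h
    simp only at h' ⊢
    rcases h' with h' | h' | h' | h' | h' | h' <;> obtain ⟨h1, h2⟩ := h' <;>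
      rw [h1, h2] <;> push_cast <;> constructor <;> rw [abs_le] <;> constructor <;> linarith
  rw [e]
  refine (Complex.norm_le_abs_re_add_abs_im _).trans ?_
  simp only
  rw [abs_mul, abs_of_nonneg (show (0 : ℝ) ≤ √3 / 2 by positivity)]
  have : √3 / 2 * |(v.2 : ℝ) - w.2| ≤ 1 * 1 :=
    mul_le_mul (by linarith) key.2 (abs_nonneg _) zero_le_one
  linarith [key.1]

theorem mid_eq (δ : ℝ) (v w : ℤ × ℤ) :
    mid δ v w = ((δ / 2 : ℝ) : ℂ) * (toC (Final.pt v) + toC (Final.pt w)) := by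
  unfold mid
  apply Complex.ext
  · simp only [toC, Prod.smul_fst, Prod.fst_add, smul_eq_mul, Complex.mul_re, Complex.ofReal_re,
      Complex.ofReal_im, Complex.add_re, zero_mul, sub_zero]
  · simp only [toC, Prod.smul_snd, Prod.snd_add, smul_eq_mul, Complex.mul_im, Complex.ofReal_re,
      Complex.ofReal_im, Complex.add_im, zero_mul, add_zero]

theorem mid_near {δ : ℝ} (hδ : 0 ≤ δ) (h : Hg) {s : St} (ha : Adj s.1 s.2) :
    ‖mid δ s.1 s.2 - mid δ (INTF.nx h s).1 (INTF.nx h s).2‖ ≤ δ := by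
  unfold INTF.nx
  split_ifs
  · rw [mid_eq, mid_eq, ← mul_sub, add_sub_add_right_eq_sub, norm_mul, Complex.norm_real,
      Real.norm_eq_abs, abs_of_nonneg (by positivity)]
    have := pt_near (INTF.ah_adj1 ha)
    nlinarith
  · rw [mid_eq, mid_eq, ← mul_sub, add_sub_add_left_eq_sub, norm_mul, Complex.norm_real,
      Real.norm_eq_abs, abs_of_nonneg (by positivity)]
    have := pt_near (INTF.ah_adj2 ha)
    rw [norm_sub_rev] at this
    nlinarith

variable {n k : ℕ} {p : ZMod n → ℤ × ℤ} {S : Finset Final.Tri} {δ : ℝ} {ψ : ℂ → ℂ} {g : Hg}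

theorem ru_good (hp : Final.IsPolygon p) (hS : Final.Encloses p S) (hk : 0 < k) (hkn : k < n)
    (hg : g ∈ Cs p k S) (j : ℕ) : Good g (ru p S g j) :=
  INTF.run_good (NZ_Cs hg) (st_good hp hS hk hkn hg) j

theorem step_near (hδ : 0 ≤ δ) (hp : Final.IsPolygon p) (hS : Final.Encloses p S) (hk : 0 < k)
    (hkn : k < n) (hg : g ∈ Cs p k S) (j : ℕ) :
    ‖mid δ (ru p S g j).1 (ru p S g j).2 - mid δ (ru p S g (j + 1)).1 (ru p S g (j + 1)).2‖ ≤ δ := by
  by_cases hf : fa (ru p S g j) ∈ S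
  · have e : ru p S g (j + 1) = INTF.nx g (ru p S g j) := INTF.run_succ hf
    rw [e]
    exact mid_near hδ g (ru_good hp hS hk hkn hg j).1
  · have e : ru p S g (j + 1) = ru p S g j := INTF.run_stop hf (j + 1) (Nat.le_succ j)
    rw [e, sub_self, norm_zero]
    exact hδ

/-- The last step stays near the end point. -/
theorem last_near (hδ : 0 ≤ δ) (hp : Final.IsPolygon p) (hS : Final.Encloses p S) (hk : 0 < k)
    (hkn : k < n) (hg : g ∈ Cs p k S) (hcan : Can p k S δ g) {t : ℝ}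
    (h0 : (nu p S g : ℝ) - 1 ≤ t) (h1 : t ≤ nu p S g) :
    ‖pl δ (ru p S g) t - bptD p k δ‖ ≤ δ := by
  obtain ⟨m, hm⟩ : ∃ m, nu p S g = m + 1 := ⟨nu p S g - 1, by have := hcan.pos; omega⟩
  have hfin := hcan.fin
  rw [hm] at hfin h0 h1
  push_cast at h0 h1
  rw [pl_nat] at hfin
  rw [pl_eq m (by linarith) h1, ← hfin]
  have e : ((1 - (t - m) : ℝ) : ℂ) * mid δ (ru p S g m).1 (ru p S g m).2 +
      ((t - m : ℝ) : ℂ) * mid δ (ru p S g (m + 1)).1 (ru p S g (m + 1)).2 -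
      mid δ (ru p S g (m + 1)).1 (ru p S g (m + 1)).2 =
      ((1 - (t - m) : ℝ) : ℂ) * (mid δ (ru p S g m).1 (ru p S g m).2 -
        mid δ (ru p S g (m + 1)).1 (ru p S g (m + 1)).2) := by
    push_cast
    ring
  rw [e, norm_mul, Complex.norm_real, Real.norm_eq_abs, abs_of_nonneg (by linarith)]
  have h2 := step_near hδ hp hS hk hkn hg m
  calc (1 - (t - m)) * ‖mid δ (ru p S g m).1 (ru p S g m).2 -
        mid δ (ru p S g (m + 1)).1 (ru p S g (m + 1)).2‖ ≤ 1 * δ :=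
        mul_le_mul (by linarith) h2 (norm_nonneg _) zero_le_one
    _ = δ := one_mul δ

/-! ### The curve is bounded in terms of the capacity and the driver -/

theorem curve_bd {γ : ℝ → ℂ} {T : ℝ} (h : Crv γ T) {t M : ℝ} (h0 : 0 ≤ t) (ht : t < T)
    (hM : ∀ s ∈ Icc 0 t, |ww γ s| ≤ M) (hγ : γ 0 = 0) : ‖γ t‖ ≤ M + 3 * √(cc γ t) := by
  have hM0 : 0 ≤ M := (abs_nonneg _).trans (hM 0 ⟨le_rfl, h0⟩)
  rcases h0.eq_or_lt with h1 | h1
  · rw [← h1, hγ, norm_zero]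
    positivity
  · by_contra hc
    push Not at hc
    have htT : t ∈ Ico 0 T := ⟨h0, ht⟩
    have hcc : 0 < cc γ t := by
      have := h.cap_strict le_rfl h1 ht
      rwa [h.cap_zero] at this
    have h2 := HULL.far_alive (W := drvT γ T t) (h.continuous_drvT htT) hcc (M := M) (fun u hu => by
      obtain ⟨s, hs, hsu⟩ := h.Icc_sub htT hu
      rw [← hsu, drvT_cc h hs.1 hs.2 ht]
      exact hM s hs) (h.im_pos t ⟨h1, ht⟩) hc
    have h3 := h2.1
    rw [L2.loewnerDomain_congr (W' := drv γ T) (fun s hs => L2.Crv.drvT_eq hs.1 hs.2),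
      h.dom htT] at h3
    exact h3.2 ⟨t, ⟨h0, le_rfl⟩, rfl⟩

/-! ### Sequences -/

section

variable {Φ : (ℝ × ℝ) ≃ₜ (ℝ × ℝ)} {ψ : ℂ → ℂ} {δ : ℕ → ℝ} {N k : ℕ → ℕ}
  {p : ∀ n, ZMod (N n) → ℤ × ℤ} {S : ℕ → Finset Final.Tri} {ψn : ℕ → ℂ → ℂ}

theorem tendsto_cob : Tendsto (fun n : ℕ => (n : ℂ) * Complex.I) atTop
    (Bornology.cobounded ℂ ⊓ 𝓟 {z : ℂ | 0 ≤ z.im}) := by
  rw [tendsto_inf]
  constructor
  · rw [← tendsto_norm_atTop_iff_cobounded]
    have e : (fun n : ℕ => ‖(n : ℂ) * Complex.I‖) = fun n : ℕ => (n : ℝ) := by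
      funext n
      rw [norm_mul, Complex.norm_I, mul_one, Complex.norm_natCast]
    rw [e]
    exact tendsto_natCast_atTop_atTop
  · rw [tendsto_principal]
    refine Eventually.of_forall fun n => ?_
    simp

/-- The end points converge. -/
theorem bpt_near (hs : Setg Φ ψ δ N k p S ψn) {ε : ℝ} (hε : 0 < ε) :
    ∀ᶠ n in atTop, dist (bptD (p n) (k n) (δ n)) (bpt Φ) ≤ ε := by
  filter_upwards [hs.conv ε hε] with n hn
  have h1 : Tendsto (fun m : ℕ => ψn n ((m : ℂ) * Complex.I)) atTop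
      (𝓝 (bptD (p n) (k n) (δ n))) := (hs.unifD n).inf.comp tendsto_cob
  have h2 : Tendsto (fun m : ℕ => ψ ((m : ℂ) * Complex.I)) atTop (𝓝 (bpt Φ)) :=
    hs.unif.2.2.2.2.2.comp tendsto_cob
  refine le_of_tendsto (h1.dist h2) (Eventually.of_forall fun m => (hn _ ?_).le)
  simp

theorem can_n (hs : Setg Φ ψ δ N k p S ψn) (hC : S_can) (n : ℕ) {g : Hg}
    (hg : g ∈ Cs (p n) (k n) (S n)) : Can (p n) (k n) (S n) (δ n) g := by
  obtain ⟨h1, h2, h3, h4, h5⟩ := hs.appr.1 n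
  exact can_of hC h1 h2 h3 h4 h5 hg

theorem crv_n (hs : Setg Φ ψ δ N k p S ψn) (hC : S_can) (n : ℕ) {g : Hg}
    (hg : g ∈ Cs (p n) (k n) (S n)) : Crv (et (ψn n) (δ n) (p n) (S n) g) (nu (p n) (S n) g) :=
  crv (hs.unifD n) (can_n hs hC n hg)

/-- The sequence of explorations. -/
noncomputable def exn (δ : ℕ → ℝ) (N k : ℕ → ℕ) (p : ∀ n, ZMod (N n) → ℤ × ℤ)
    (S : ℕ → Finset Final.Tri) (ψn : ℕ → ℂ → ℂ) (n : ℕ) : M1.Expl Hg St :=
  ex (ψn n) (δ n) (p n) (k n) (S n)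

theorem exn_c (n : ℕ) {g : Hg} {j : ℕ} (hj : j < nu (p n) (S n) g) :
    (exn δ N k p S ψn n).c g j = cp (ψn n) (δ n) (p n) (S n) g j := by
  change cp (ψn n) (δ n) (p n) (S n) g (sj (p n) (S n) g j) = _
  rw [sj_lt hj]

theorem exn_V (hs : Setg Φ ψ δ N k p S ψn) (hC : S_can) (n : ℕ) {g : Hg}
    (hg : g ∈ Cs (p n) (k n) (S n)) {j : ℕ} (hj : j < nu (p n) (S n) g) :
    (exn δ N k p S ψn n).V g j = wd (ψn n) (δ n) (p n) (S n) g j := by
  have h1 := V_eq (k := k n) (crv_n hs hC n hg) (can_n hs hC n hg).pos j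
  rw [sj_lt hj] at h1
  exact h1

/-- Small steps. -/
theorem exn_small (hs : Setg Φ ψ δ N k p S ψn) (hC : S_can) (hst : S_step) (T R : ℝ) :
    ∃ e : ℕ → ℝ, Tendsto e atTop (𝓝 0) ∧ ∀ᶠ n in atTop, ∀ g ∈ (exn δ N k p S ψn n).C,
    ∀ j, j + 1 < (exn δ N k p S ψn n).K g →
    (∀ i ≤ j, (exn δ N k p S ψn n).c g i ≤ T ∧ |(exn δ N k p S ψn n).V g i| ≤ R) →
    (exn δ N k p S ψn n).c g (j + 1) - (exn δ N k p S ψn n).c g j ≤ e n ∧
    ∀ u : ℝ≥0, (exn δ N k p S ψn n).c g j ≤ u → (u : ℝ) ≤ (exn δ N k p S ψn n).c g (j + 1) →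
      |(exn δ N k p S ψn n).w g u - (exn δ N k p S ψn n).V g j| ≤ e n := by
  obtain ⟨e, he, h⟩ := hst Φ ψ δ N k p S ψn hs T R
  refine ⟨e, he, ?_⟩
  filter_upwards [h] with n hn g hg j hj hb
  have hj' : j + 1 < nu (p n) (S n) g := hj
  have hcr := crv_n hs hC n hg
  have hpos := (can_n hs hC n hg).pos
  obtain ⟨h1, h2⟩ := hn g hg j hj' fun i hi => by
    have h3 := hb i hi
    rwa [exn_c n (by omega), exn_V hs hC n hg (by omega)] at h3
  rw [exn_c n hj', exn_c n (by omega), exn_V hs hC n hg (by omega)]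
  push_cast
  refine ⟨h1, fun u hu0 hu1 => ?_⟩
  have hj1 : ((j : ℝ) + 1) + 1 ≤ nu (p n) (S n) g := by exact_mod_cast hj'
  have hivt := intermediate_value_Icc (show (j : ℝ) ≤ j + 1 by linarith)
    (hcr.cap_cont.mono (fun t ht => ⟨(Nat.cast_nonneg j).trans ht.1,
      ht.2.trans_lt (by linarith)⟩ : Icc (j : ℝ) (j + 1) ⊆ Ico 0 (nu (p n) (S n) g : ℝ)))
  obtain ⟨t, ht, htu⟩ := hivt ⟨hu0, hu1⟩
  have h3 := wf_cc hcr hpos ((Nat.cast_nonneg j).trans ht.1) (by linarith [ht.2])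
  have h4 : cp (ψn n) (δ n) (p n) (S n) g t = u := htu
  rw [h4, Real.toNNReal_coe] at h3
  change |wf (ψn n) (δ n) (p n) (S n) g u - _| ≤ _
  rw [h3]
  exact h2 t ht

/-- **The exit from the compact sets is before the last step.** -/
theorem exn_far (hs : Setg Φ ψ δ N k p S ψn) (hC : S_can) (hst : S_step) (hi : I_uinj)
    (T R : ℝ) : ∀ᶠ n in atTop, ∀ g ∈ (exn δ N k p S ψn n).C,
    ∃ j < (exn δ N k p S ψn n).K g,
      T < (exn δ N k p S ψn n).c g j ∨ R < |(exn δ N k p S ψn n).V g j| := by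
  obtain ⟨e, he, h⟩ := hst Φ ψ δ N k p S ψn hs T R
  set M : ℝ := |R| + 1 + 3 * √T with hM
  have hM0 : 0 ≤ M := by positivity
  -- the distance of the compact part to the end point
  obtain ⟨c0, hc0, hcd⟩ : ∃ c0 : ℝ, 0 < c0 ∧ ∀ z : ℂ, 0 ≤ z.im → ‖z‖ ≤ M →
      c0 ≤ dist (ψ z) (bpt Φ) := by
    have hK : IsCompact (Metric.closedBall (0 : ℂ) M ∩ {z : ℂ | 0 ≤ z.im}) :=
      (isCompact_closedBall 0 M).inter_right (isClosed_le continuous_const Complex.continuous_im)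
    have hcont : ContinuousOn (fun z => dist (ψ z) (bpt Φ))
        (Metric.closedBall (0 : ℂ) M ∩ {z : ℂ | 0 ≤ z.im}) := by
      have h1 : ContinuousOn ψ (Metric.closedBall (0 : ℂ) M ∩ {z : ℂ | 0 ≤ z.im}) :=
        hs.unif.2.2.2.1.mono inter_subset_right
      have h2 : Continuous fun w : ℂ => dist w (bpt Φ) := by fun_prop
      exact h2.comp_continuousOn h1
    obtain ⟨z₀, hz₀, hmin⟩ := hK.exists_isMinOn ⟨0, by simp [hM0]⟩ hcont
    refine ⟨dist (ψ z₀) (bpt Φ), dist_pos.2 ((hi Φ ψ hs.unif).2 z₀ hz₀.2), fun z hz hzM => ?_⟩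
    exact hmin ⟨mem_closedBall_zero_iff.2 hzM, hz⟩
  have hδ := hs.appr.2.1.eventually (gt_mem_nhds (show (0 : ℝ) < c0 / 4 by positivity))
  have he1 := he.eventually (gt_mem_nhds (show (0 : ℝ) < 1 by norm_num))
  filter_upwards [h, hδ, he1, bpt_near hs (show 0 < c0 / 4 by positivity),
    hs.conv (c0 / 4) (by positivity)] with n hn hδn hen hbn hcn g hg
  by_contra hc
  push Not at hc
  obtain ⟨a1, a2, a3, a4, a5⟩ := hs.appr.1 n
  have hcr := crv_n hs hC n hg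
  have hcan := can_n hs hC n hg
  have hpos := hcan.pos
  have hb : ∀ j < nu (p n) (S n) g, cp (ψn n) (δ n) (p n) (S n) g j ≤ T ∧
      |wd (ψn n) (δ n) (p n) (S n) g j| ≤ R := by
    intro j hj
    have h1 := hc j hj
    rwa [exn_c n hj, exn_V hs hC n hg hj] at h1
  obtain ⟨m, hm⟩ : ∃ m, nu (p n) (S n) g = m + 1 := ⟨nu (p n) (S n) g - 1, by omega⟩
  have hR : 0 ≤ R := (abs_nonneg _).trans (hb 0 hpos).2
  -- the driver is bounded before the last step
  have hw : ∀ s ∈ Icc (0 : ℝ) m, |ww (et (ψn n) (δ n) (p n) (S n) g) s| ≤ |R| + 1 := by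
    intro s hs'
    rcases hs'.2.lt_or_eq with h1 | h1
    · set j := ⌊s⌋₊ with hj
      have hj1 : (j : ℝ) ≤ s := Nat.floor_le hs'.1
      have hj2 : s < j + 1 := Nat.lt_floor_add_one s
      have hjm : j < m := (Nat.floor_lt hs'.1).2 h1
      have h2 := (hn g hg j (by omega) fun i hi => hb i (by omega)).2 s ⟨hj1, hj2.le⟩
      have h3 := (hb j (by omega)).2
      have h4 : |wd (ψn n) (δ n) (p n) (S n) g s| ≤ |wd (ψn n) (δ n) (p n) (S n) g s -
          wd (ψn n) (δ n) (p n) (S n) g j| + |wd (ψn n) (δ n) (p n) (S n) g j| := by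
        have := abs_add_le (wd (ψn n) (δ n) (p n) (S n) g s - wd (ψn n) (δ n) (p n) (S n) g j)
          (wd (ψn n) (δ n) (p n) (S n) g j)
        rwa [sub_add_cancel] at this
      change |wd (ψn n) (δ n) (p n) (S n) g s| ≤ _
      have h5 := le_abs_self R
      linarith
    · rw [h1]
      have h2 := (hb m (by omega)).2
      change |wd (ψn n) (δ n) (p n) (S n) g m| ≤ _
      have h5 := le_abs_self R
      linarith
  have hmn : (m : ℝ) < nu (p n) (S n) g := by rw [hm]; push_cast; linarith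
  have h1 := curve_bd hcr (Nat.cast_nonneg m) hmn hw (et_zero (hs.unifD n) hcan)
  have h2 : √(cc (et (ψn n) (δ n) (p n) (S n) g) m) ≤ √T :=
    Real.sqrt_le_sqrt (hb m (by omega)).1
  have h3 : ‖et (ψn n) (δ n) (p n) (S n) g m‖ ≤ M := by
    rw [hM]
    linarith
  have him : 0 ≤ (et (ψn n) (δ n) (p n) (S n) g m).im :=
    et_mem (hs.unifD n) hcan (Nat.cast_nonneg m) hmn
  have h4 := hcd _ him h3
  have h5 := hcn _ him
  rw [psi_et (hs.unifD n) hcan (Nat.cast_nonneg m) hmn] at h5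
  have h6 := last_near a1.le a4 a5 a2 a3 hg hcan (t := m) (by rw [hm]; push_cast; linarith) hmn.le
  rw [← dist_eq_norm] at h6
  have h7 := dist_triangle4 (ψ (et (ψn n) (δ n) (p n) (S n) g m))
    (pl (δ n) (ru (p n) (S n) g) m) (bptD (p n) (k n) (δ n)) (bpt Φ)
  rw [dist_comm] at h5
  linarith

end

end Vale.Agent.P153.R2.DRV
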