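import Vale.Agent.P153.R2.DRV.Mart
import Vale.Agent.P153.R2.KAPV.Inst

/-!
# P153, blocks DRV and KAPV: `kap_flow` for the interfaces

`kap_expl`: `kap_flow` for sequences of finite explorations; `kap_drv`: for the interfaces.
-/

set_option autoImplicit false
set_option linter.unusedVariables false

open MeasureTheory ProbabilityTheory Filter Topology Set
open scoped NNReal ENNReal

namespace Vale.Agent.P153.R2.DRV

open Vale.Agent.P153.R2.Final Vale.Agent.P153.R2.UNIQ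
open Vale.Agent.P153.R2.INTF (St run fa fb StopIx StopMeas Fk Rk len eta mem_CA Good)
open Vale.Agent.P153.R2.FLDI (inn mem_inn polyF enclF adjF)
open Vale.Agent.P153.R2.L2 (Crv gg cc ww drv tau)
open Vale.Agent.P153.R2.L2.Crv (drvT)
open Vale.Agent.P164 (loewnerDomain flow flow_eq IsLoewnerSol)
open Vale.Agent.P153.M1 (Expl Asym sysX)
open Vale.Agent.P153.R2.KAPV (mF qF GH zt)

section Expl

variable {A B : Type*} {X : ℕ → Expl A B}

/-- The exit index of `[0, T] × [-R, R]` as a stopping index of the explorations. -/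
theorem exit_index (hX : Asym X) (T R : ℝ) : ∃ κ : ℕ → A → ℕ, (∀ n, (X n).StopIx (κ n)) ∧
    (∀ n, ∀ h ∈ (X n).C, κ n h < (X n).K h) ∧
    (∀ n, ∀ h ∈ (X n).C, ∀ j < κ n h, (X n).c h j ≤ T ∧ |(X n).V h j| ≤ R) ∧
    ∀ᶠ n in atTop, ∀ ω : (X n).C, M1.Sys.ex hX.ok T R n ω = κ n ω ∧
      (sysX X).τ n (κ n ω) ω = (X n).c ω (κ n ω) := by
  classical
  set good : ℕ → Prop := fun n => ∀ (h : (X n).C) (k : ℕ), (sysX X).Bef T R n h k →
    k < (X n).K h with hgood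
  have hev : ∀ᶠ n in atTop, good n := hX.lt_K
  have hexS := M1.Sys.ex_St hX.ok T R
  set κ1 : ℕ → A → ℕ := fun n a => if hg : good n ∧ a ∈ (X n).C then
    M1.Sys.ex hX.ok T R n ⟨a, hg.2⟩ else 0 with hκ1
  have e1 : ∀ n, good n → ∀ h (hh : h ∈ (X n).C),
      κ1 n h = M1.Sys.ex hX.ok T R n ⟨h, hh⟩ := fun n hn h hh => by
    rw [hκ1]; exact dif_pos ⟨hn, hh⟩
  have f1 : ∀ n, ¬ good n → ∀ h, κ1 n h = 0 := fun n hn h => by
    rw [hκ1]; exact dif_neg fun hc => hn hc.1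
  refine ⟨κ1, fun n h hh h' hh' ha => ?_, fun n h hh => ?_, fun n h hh j hj => ?_, ?_⟩
  · by_cases hn : good n
    · rw [e1 n hn h hh, e1 n hn h' hh']
      rw [e1 n hn h hh] at ha
      exact Expl.stop_of (hexS.stop n) (h := ⟨h, hh⟩) (h' := ⟨h', hh'⟩) ha
    · rw [f1 n hn, f1 n hn]
  · by_cases hn : good n
    · rw [e1 n hn h hh]
      exact hn ⟨h, hh⟩ _ (hexS.bef n ⟨h, hh⟩)
    · rw [f1 n hn]
      exact (hX.wf n).pos h hh
  · by_cases hn : good n
    · rw [e1 n hn h hh] at hj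
      have h1 : M1.Sys.ex hX.ok T R n ⟨h, hh⟩ < (X n).K h := hn ⟨h, hh⟩ _ (hexS.bef n ⟨h, hh⟩)
      obtain ⟨h5, h6⟩ := hexS.bef n ⟨h, hh⟩ j hj
      have e4 : (sysX X).τ n j ⟨h, hh⟩ = (X n).c h j := Expl.tt_le (by
        change j ≤ (X n).K h
        omega)
      have e5 : (sysX X).V n j ⟨h, hh⟩ = (X n).V h j := Expl.W_tt_le (by
        change j ≤ (X n).K h
        omega)
      rw [e4] at h5
      rw [e5] at h6
      exact ⟨h5, h6⟩
    · rw [f1 n hn] at hj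
      exact absurd hj (Nat.not_lt_zero j)
  · filter_upwards [hev] with n hn ω
    have h1 : κ1 n ω = M1.Sys.ex hX.ok T R n ω := e1 n hn ω ω.2
    have h2 : M1.Sys.ex hX.ok T R n ω < (X n).K ω := hn ω _ (hexS.bef n ω)
    refine ⟨h1.symm, Expl.tt_le ?_⟩
    rw [h1]
    exact h2.le

variable {I : Type*} [MeasurableSpace I] {ν : Measure I} [IsFiniteMeasure ν]

/-- **The value of the variance constant**, for sequences of finite explorations. -/
theorem kap_expl (hX : Asym X) {p : ℕ → I → ℂ} {c C kap s1 : ℝ} (hp : ∀ n, Measurable (p n))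
    (hc : 0 < c) (hpc : ∀ n a, c ≤ (p n a).im) (hpC : ∀ n a, ‖p n a‖ ≤ C) (hν : ν ≠ 0)
    (hint : ∀ n, Integrable (fun x : I × I => GH (p n x.1) (p n x.2)) (ν.prod ν))
    (hne : ∀ n, ∀ᵐ x : I × I ∂(ν.prod ν), p n x.1 ≠ p n x.2) (hs1 : 0 < s1)
    (h12 : ∀ s : ℝ, 0 < s → s ≤ s1 → ∀ κ : ℕ → A → ℕ, (∀ n, (X n).StopIx (κ n)) →
      (∀ n, ∀ h ∈ (X n).C, κ n h < (X n).K h) →
      (∀ n, ∀ h ∈ (X n).C, ∀ j < κ n h, (X n).c h j ≤ s ^ 2 ∧ |(X n).V h j| ≤ 3 * s) →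
      Tendsto (fun n => Ex (X n).C fun h =>
        mF ν (fun a => flow ((X n).W h) ((X n).c h (κ n h)) (p n a)) - mF ν (p n)) atTop (𝓝 0) ∧
      Tendsto (fun n => Ex (X n).C fun h =>
        mF ν (fun a => flow ((X n).W h) ((X n).c h (κ n h)) (p n a)) ^ 2 - mF ν (p n) ^ 2 +
          kap * (qF ν (fun a => flow ((X n).W h) ((X n).c h (κ n h)) (p n a)) - qF ν (p n)))
        atTop (𝓝 0)) : kap = 8 / Real.pi := by
  have hP : ∀ n, IsProbabilityMeasure (hX.prX n) := hX.prX_prob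
  refine KAPV.kap_flow (P := hX.prX) hX.ok (hX.obs.am hX.ok) (fun n ω => M1.W_cont n ω) hp hc hpc
    hpC hν hint hne (fun n k => measurable_from_top) (fun n k => measurable_from_top) hs1
    (fun s hs hss => ?_) (fun s hs hss => ?_)
  · obtain ⟨κ, k1, k2, k3, k4⟩ := exit_index hX (s ^ 2) (3 * s)
    refine (h12 s hs hss κ k1 k2 k3).1.congr' ?_
    filter_upwards [k4] with n hn
    rw [← hX.integral_prX n]
    refine integral_congr_ae (Eventually.of_forall fun ω => ?_)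
    obtain ⟨e1, e2⟩ := hn ω
    dsimp only
    rw [e1]
    have e3 : zt (sysX X) p n (κ n ω) ω =
        fun a => flow ((X n).W ω) ((X n).c ω (κ n ω)) (p n a) := by
      funext a
      unfold KAPV.zt
      rw [e2]
      rfl
    rw [e3]
  · obtain ⟨κ, k1, k2, k3, k4⟩ := exit_index hX (s ^ 2) (3 * s)
    refine (h12 s hs hss κ k1 k2 k3).2.congr' ?_
    filter_upwards [k4] with n hn
    rw [← hX.integral_prX n]
    refine integral_congr_ae (Eventually.of_forall fun ω => ?_)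
    obtain ⟨e1, e2⟩ := hn ω
    dsimp only
    rw [e1]
    have e3 : zt (sysX X) p n (κ n ω) ω =
        fun a => flow ((X n).W ω) ((X n).c ω (κ n ω)) (p n a) := by
      funext a
      unfold KAPV.zt
      rw [e2]
      rfl
    rw [e3]

end Expl

section

variable {Φ : (ℝ × ℝ) ≃ₜ (ℝ × ℝ)} {ψ : ℂ → ℂ} {δ : ℕ → ℝ} {N k : ℕ → ℕ}
  {p : ∀ n, ZMod (N n) → ℤ × ℤ} {S : ℕ → Finset Final.Tri} {ψn : ℕ → ℂ → ℂ}

/-- At stops before the exit, capacity and driver are bounded, sharp form. -/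
theorem stop_bd' (hs : Setg Φ ψ δ N k p S ψn) (hC : S_can) (hst : S_step) {T R η : ℝ}
    (hT : 0 ≤ T) (hR : 0 ≤ R) (hη : 0 < η) : ∀ᶠ n in atTop, ∀ h ∈ Cs (p n) (k n) (S n),
      ∀ m < nu (p n) (S n) h,
      (∀ j < m, cp (ψn n) (δ n) (p n) (S n) h j ≤ T ∧ |wd (ψn n) (δ n) (p n) (S n) h j| ≤ R) →
      cp (ψn n) (δ n) (p n) (S n) h m ≤ T + η ∧ |wd (ψn n) (δ n) (p n) (S n) h m| ≤ R + η := by
  obtain ⟨e, he, h⟩ := hst Φ ψ δ N k p S ψn hs T R
  filter_upwards [h, he.eventually (gt_mem_nhds hη)] with n hn hen g hg m hm hb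
  have hcr := crv_n hs hC n hg
  rcases Nat.eq_zero_or_pos m with h0 | h0
  · subst h0
    have h1 : cp (ψn n) (δ n) (p n) (S n) g ((0 : ℕ) : ℝ) = 0 := by
      rw [Nat.cast_zero]; exact hcr.cap_zero
    have h2 : wd (ψn n) (δ n) (p n) (S n) g ((0 : ℕ) : ℝ) = 0 := by
      rw [Nat.cast_zero]
      have h3 := ww_zero hcr
      rw [et_zero (hs.unifD n) (can_n hs hC n hg)] at h3
      exact_mod_cast h3
    rw [h1, h2, abs_zero]
    constructor <;> linarith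
  · obtain ⟨j, rfl⟩ : ∃ j, m = j + 1 := ⟨m - 1, by omega⟩
    obtain ⟨h1, h2⟩ := hn g hg j hm fun i hi => hb i (by omega)
    obtain ⟨h3, h4⟩ := hb j (by omega)
    have h5 := h2 (j + 1) ⟨by linarith, le_rfl⟩
    have h6 := abs_add_le (wd (ψn n) (δ n) (p n) (S n) g ((j : ℝ) + 1) -
      wd (ψn n) (δ n) (p n) (S n) g j) (wd (ψn n) (δ n) (p n) (S n) g j)
    rw [sub_add_cancel] at h6
    push_cast
    constructor <;> linarith

variable {I : Type*} [MeasurableSpace I] {ν : Measure I} [IsFiniteMeasure ν]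

/-- **The value of the variance constant**, for the interfaces: it is enough that the integrated
mean and the integrated second moment are asymptotically preserved by the interface up to stops
before the exit from `[0, s²] × [-3 s, 3 s]`. -/
theorem kap_drv (hs : Setg Φ ψ δ N k p S ψn) (hC : S_can) (hst : S_step) (hob : S_obs)
    (hi : I_uinj) {q : ℕ → I → ℂ} {c C kap s1 : ℝ} (hp : ∀ n, Measurable (q n))
    (hc : 0 < c) (hpc : ∀ n a, c ≤ (q n a).im) (hpC : ∀ n a, ‖q n a‖ ≤ C) (hν : ν ≠ 0)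
    (hint : ∀ n, Integrable (fun x : I × I => GH (q n x.1) (q n x.2)) (ν.prod ν))
    (hne : ∀ n, ∀ᵐ x : I × I ∂(ν.prod ν), q n x.1 ≠ q n x.2) (hs1 : 0 < s1)
    (h12 : ∀ s : ℝ, 0 < s → s ≤ s1 → 16 * s ^ 2 ≤ c ^ 2 → ∀ κ : ℕ → Hg → ℕ,
      (∀ n, StopIx (Cs (p n) (k n) (S n)) (S n) (st (p n) (S n)) (κ n)) →
      (∀ n, ∀ h ∈ Cs (p n) (k n) (S n), κ n h < nu (p n) (S n) h) →
      (∀ n, ∀ h ∈ Cs (p n) (k n) (S n), ∀ j < κ n h,
        cp (ψn n) (δ n) (p n) (S n) h j ≤ s ^ 2 ∧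
        |wd (ψn n) (δ n) (p n) (S n) h j| ≤ 3 * s) →
      (∀ η > 0, ∀ᶠ n in atTop, ∀ h ∈ Cs (p n) (k n) (S n),
        cp (ψn n) (δ n) (p n) (S n) h (κ n h) ≤ s ^ 2 + η ∧
        |wd (ψn n) (δ n) (p n) (S n) h (κ n h)| ≤ 3 * s + η) →
      Tendsto (fun n => Ex (Cs (p n) (k n) (S n)) fun h =>
        mF ν (fun a => gc (ψn n) (δ n) (p n) (S n) h (κ n h) (q n a)) - mF ν (q n))
        atTop (𝓝 0) ∧
      Tendsto (fun n => Ex (Cs (p n) (k n) (S n)) fun h =>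
        mF ν (fun a => gc (ψn n) (δ n) (p n) (S n) h (κ n h) (q n a)) ^ 2 - mF ν (q n) ^ 2 +
          kap * (qF ν (fun a => gc (ψn n) (δ n) (p n) (S n) h (κ n h) (q n a)) - qF ν (q n)))
        atTop (𝓝 0)) : kap = 8 / Real.pi := by
  have hX := exn_asym hs hC hst hob hi
  refine kap_expl hX hp hc hpc hpC hν hint hne (s1 := min s1 (c / 4))
    (lt_min hs1 (by positivity)) fun s hs0 hss κ k1 k2 k3 => ?_
  have hs2 : s ≤ s1 := hss.trans (min_le_left _ _)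
  have hs3 : s ≤ c / 4 := hss.trans (min_le_right _ _)
  have h16 : 16 * s ^ 2 ≤ c ^ 2 := by nlinarith
  have k2' : ∀ n, ∀ h ∈ Cs (p n) (k n) (S n), κ n h < nu (p n) (S n) h := k2
  have k3' : ∀ n, ∀ h ∈ Cs (p n) (k n) (S n), ∀ j < κ n h,
      cp (ψn n) (δ n) (p n) (S n) h j ≤ s ^ 2 ∧
      |wd (ψn n) (δ n) (p n) (S n) h j| ≤ 3 * s := by
    intro n h hh j hj
    have h1 := k3 n h hh j hj
    have h2 : j < nu (p n) (S n) h := hj.trans (k2' n h hh)
    rwa [exn_c n h2, exn_V hs hC n hh h2] at h1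
  have k4 : ∀ η > 0, ∀ᶠ n in atTop, ∀ h ∈ Cs (p n) (k n) (S n),
      cp (ψn n) (δ n) (p n) (S n) h (κ n h) ≤ s ^ 2 + η ∧
      |wd (ψn n) (δ n) (p n) (S n) h (κ n h)| ≤ 3 * s + η := by
    intro η hη
    filter_upwards [stop_bd' hs hC hst (T := s ^ 2) (R := 3 * s) (by positivity) (by positivity)
      hη] with n hn h hh
    exact hn h hh _ (k2' n h hh) (k3' n h hh)
  have hfl : ∀ᶠ n in atTop, ∀ h ∈ Cs (p n) (k n) (S n), ∀ a,
      flow ((exn δ N k p S ψn n).W h) ((exn δ N k p S ψn n).c h (κ n h)) (q n a) =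
        gc (ψn n) (δ n) (p n) (S n) h (κ n h) (q n a) := by
    filter_upwards [k4 (c ^ 2 / 16) (by positivity)] with n hn h hh a
    refine flow_gc (crv_n hs hC n hh) (can_n hs hC n hh).pos (k2' n h hh)
      (hc.trans_le (hpc n a)) ?_
    have h1 := (hn h hh).1
    have h2 : c ^ 2 ≤ (q n a).im ^ 2 := pow_le_pow_left₀ hc.le (hpc n a) 2
    have h3 : 0 < c ^ 2 := by positivity
    linarith
  obtain ⟨r1, r2⟩ := h12 s hs0 hs2 h16 κ k1 k2' k3' k4
  constructor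
  · refine r1.congr' ?_
    filter_upwards [hfl] with n hn
    refine Ex_congr fun h hh => ?_
    rw [funext (hn h hh)]
  · refine r2.congr' ?_
    filter_upwards [hfl] with n hn
    refine Ex_congr fun h hh => ?_
    rw [funext (hn h hh)]

end

end Vale.Agent.P153.R2.DRV
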