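import Vale.Agent.P153.R2.DRV.Mart
import Vale.Agent.P153.R2.R1.Out1

/-!
# P153, block DRV: the proof of `UNIQ.I_drv`
-/

set_option autoImplicit false
set_option linter.unusedVariables false

open MeasureTheory ProbabilityTheory Filter Topology Set
open scoped NNReal ENNReal

namespace Vale.Agent.P153.R2.DRV

open Vale.Agent.P153.R2.Final Vale.Agent.P153.R2.UNIQ
open Vale.Agent.P153.R2.INTF (St run fa fb StopIx StopMeas Fk Rk len eta mem_CA Good)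
open Vale.Agent.P153.R2.FLDI (inn mem_inn polyF enclF adjF)
open Vale.Agent.P153.R2.L2 (Crv gg cc ww drv tau)
open Vale.Agent.P153.R2.L2.Crv (drvT)
open Vale.Agent.P153.R2.ARCX (SGen)

/-! ### Change of parameter -/

theorem sgen_reparam {W : ℝ → ℝ} {η : ℝ → ℂ} {c : ℝ → ℝ} {T₁ T : ℝ} (h : SGen W η c T₁)
    {σ : ℝ → ℝ} (hT : 0 < T) (hc : ContinuousOn σ (Icc 0 T)) (hm : StrictMonoOn σ (Icc 0 T))
    (h0 : σ 0 = 0) (h1 : σ T = T₁) : SGen W (fun t => η (σ t)) (fun t => c (σ t)) T := by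
  have hmaps : MapsTo σ (Ico 0 T) (Ico 0 T₁) := by
    intro t ht
    refine ⟨?_, ?_⟩
    · rw [← h0]
      exact hm.monotoneOn ⟨le_rfl, hT.le⟩ ⟨ht.1, ht.2.le⟩ ht.1
    · rw [← h1]
      exact hm ⟨ht.1, ht.2.le⟩ ⟨hT.le, le_rfl⟩ ht.2
  have hc' : ContinuousOn σ (Ico 0 T) := hc.mono Ico_subset_Icc_self
  have hm' : StrictMonoOn σ (Ico 0 T) := hm.mono Ico_subset_Icc_self
  refine ⟨hT, h.cont.comp hc' hmaps, h.inj.comp hm'.injOn hmaps, fun t ht => ?_, ?_,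
    h.contc.comp hc' hmaps, fun s hs t ht hst => h.mono (hmaps hs) (hmaps ht) (hm' hs ht hst),
    ?_, fun t ht => ?_⟩
  · refine h.im_pos _ ⟨?_, (hmaps ⟨ht.1.le, ht.2⟩).2⟩
    rw [← h0]
    exact hm ⟨le_rfl, hT.le⟩ ⟨ht.1.le, ht.2.le⟩ ht.1
  · change η (σ 0) = _
    rw [h0]
    exact h.start
  · change c (σ 0) = 0
    rw [h0]
    exact h.c_zero
  · change Vale.Agent.P164.loewnerDomain W (c (σ t)) = _
    rw [h.dom _ (hmaps ht)]
    congr 1
    ext z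
    constructor
    · rintro ⟨s, hs, rfl⟩
      have h2 : Icc (σ 0) (σ t) ⊆ σ '' Icc 0 t :=
        intermediate_value_Icc ht.1 (hc'.mono fun u hu => ⟨hu.1, hu.2.trans_lt ht.2⟩)
      rw [h0] at h2
      obtain ⟨u, hu, rfl⟩ := h2 hs
      exact ⟨u, hu, rfl⟩
    · rintro ⟨u, hu, rfl⟩
      have hu' : u ∈ Icc 0 T := ⟨hu.1, hu.2.trans ht.2.le⟩
      refine ⟨σ u, ⟨?_, hm.monotoneOn hu' ⟨ht.1, ht.2.le⟩ hu.2⟩, rfl⟩
      rw [← h0]
      exact hm.monotoneOn ⟨le_rfl, hT.le⟩ hu' hu.1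

/-! ### One configuration -/

variable {n k : ℕ} {p : ZMod n → ℤ × ℤ} {S : Finset Final.Tri} {δ : ℝ} {ψ : ℂ → ℂ}

/-- The driver of the interface. -/
theorem wf_toNNReal {g : Hg} (hc : Crv (et ψ δ p S g) (nu p S g)) (hn : 0 < nu p S g) :
    (fun t : ℝ => wf ψ δ p S g t.toNNReal) =
      drvT (et ψ δ p S g) (nu p S g) (nu p S g - 1 / 2) := by
  funext t
  rw [wf_eq hc hn, Real.coe_toNNReal']
  unfold L2.Crv.drvT
  rw [max_eq_left (le_max_right t 0)]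

/-- **The interface, its image in the half-plane and its driver.** -/
theorem disc_exists (hC : S_can) (hU : IsUnifD p k S δ ψ) (hδ : 0 < δ) (hk : 0 < k)
    (hkn : k < n) (hp : Final.IsPolygon p) (hS : Final.Encloses p S) {h : Hg}
    (hh : h ∈ Heights p k S) {x : C(unitInterval, ℂ)} (hx : IsInterface p k S δ h x) :
    ∃ (η : ℝ → ℂ) (c : ℝ → ℝ) (T₀ T : ℝ),
      Disc ψ (bptD p k δ) x η c (wf ψ δ p S (sh p S h)) T₀ T δ := by
  obtain ⟨-, -, -, -, -, hσ⟩ := hC n k p S δ hδ hk hkn hp hS h hh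
  obtain ⟨σ, hσc, hσm, hσ0, hσ1, hσx⟩ := hσ x hx
  have hg : sh p S h ∈ Cs p k S := sh_mem hp hS hh
  have hcan : Can p k S δ (sh p S h) := can_of hC hδ hk hkn hp hS hg
  have hcr : Crv (et ψ δ p S (sh p S h)) (nu p S (sh p S h)) := crv hU hcan
  set g := sh p S h with hgdef
  have hν : (1 : ℝ) ≤ nu p S g := by exact_mod_cast hcan.pos
  -- the extension of the parameter
  set τ : ℝ → ℝ := fun t => σ (projIcc 0 1 zero_le_one t) with hτ
  have hτc : Continuous τ := hσc.comp continuous_projIcc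
  have hτe : ∀ t : unitInterval, τ t = σ t := fun t => by
    rw [hτ]
    dsimp only
    rw [projIcc_val]
  have hτ0 : τ 0 = 0 := by
    have := hτe 0
    rw [hσ0] at this
    exact this
  have hτ1 : τ 1 = nu p S g := by
    have := hτe 1
    rw [hσ1] at this
    exact this
  have hτm : StrictMonoOn τ (Icc 0 1) := by
    intro s hs t ht hst
    have h1 := hτe ⟨s, hs⟩
    have h2 := hτe ⟨t, ht⟩
    simp only at h1 h2
    rw [h1, h2]
    exact hσm hst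
  have hivt : ∀ v ∈ Icc 0 (nu p S g : ℝ), ∃ t ∈ Icc (0 : ℝ) 1, τ t = v := by
    intro v hv
    have h1 := intermediate_value_Icc (zero_le_one (α := ℝ)) hτc.continuousOn
    rw [hτ0, hτ1] at h1
    obtain ⟨t, ht, htv⟩ := h1 hv
    exact ⟨t, ht, htv⟩
  obtain ⟨T, hT, hTv⟩ := hivt (nu p S g - 1 / 2) ⟨by linarith, by linarith⟩
  obtain ⟨T₀, hT₀, hTv₀⟩ := hivt (nu p S g - 3 / 4) ⟨by linarith, by linarith⟩
  have hT₀pos : 0 < T₀ := by
    rw [← hτm.lt_iff_lt ⟨le_rfl, zero_le_one⟩ hT₀, hτ0, hTv₀]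
    linarith
  have hT₀T : T₀ < T := by
    rw [← hτm.lt_iff_lt hT₀ hT, hTv, hTv₀]
    linarith
  have hTpos : 0 < T := hT₀pos.trans hT₀T
  have hmem : ∀ t ∈ Ico (0 : ℝ) T, 0 ≤ τ t ∧ τ t < nu p S g := by
    intro t ht
    have ht1 : t ∈ Icc (0 : ℝ) 1 := ⟨ht.1, ht.2.le.trans hT.2⟩
    constructor
    · rw [← hτ0]
      exact hτm.monotoneOn ⟨le_rfl, zero_le_one⟩ ht1 ht.1
    · have h1 := hτm ht1 hT ht.2
      rw [hTv] at h1
      linarith
  refine ⟨fun t => et ψ δ p S g (τ t), fun t => cc (et ψ δ p S g) (τ t), T₀, T, ?_⟩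
  constructor
  · exact hT₀pos
  · exact hT₀T
  · exact hT.2
  · intro t ht
    exact et_mem hU hcan (hmem t ht).1 (hmem t ht).2
  · intro t ht
    obtain ⟨h1, h2⟩ := hmem t ⟨t.2.1, ht⟩
    rw [psi_et hU hcan h1 h2, hσx t, hτe t]
  · rw [wf_toNNReal hcr hcan.pos]
    have h1 := (hcr.sgen_local (t₁ := nu p S g - 1 / 2) ⟨by linarith, by linarith⟩).2
    exact sgen_reparam h1 hTpos hτc.continuousOn
      (hτm.mono (Icc_subset_Icc_right hT.2)) hτ0 hTv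
  · intro t ht
    have h1 : τ T₀ ≤ τ t := hτm.monotoneOn hT₀ t.2 ht
    have h2 : τ t ≤ τ 1 := hτm.monotoneOn t.2 ⟨zero_le_one, le_rfl⟩ t.2.2
    rw [hTv₀] at h1
    rw [hτ1] at h2
    rw [dist_eq_norm, hσx t, ← hτe t]
    exact last_near hδ.le hp hS hk hkn hg hcan (by linarith) h2

/-! ### The theorem -/

/-- **The drivers converge in law to `2 B`**, from the interfaces with other blocks. -/
theorem drv_of (hC : S_can) (hst : S_step) (hob : S_obs) (hi : I_uinj) : I_drv := by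
  intro Φ ψ hψ δ N k p S hA ψn hψn hconv x hx
  have hs : Setg Φ ψ δ N k p S ψn := ⟨hψ, hA, hψn, hconv⟩
  have hdisc : ∀ n, ∀ h ∈ Heights (p n) (k n) (S n), ∃ (η : ℝ → ℂ) (c : ℝ → ℝ) (T₀ T : ℝ),
      Disc (ψn n) (bptD (p n) (k n) (δ n)) (x n h) η c
        (wf (ψn n) (δ n) (p n) (S n) (sh (p n) (S n) h)) T₀ T (δ n) := by
    intro n h hh
    obtain ⟨a1, a2, a3, a4, a5⟩ := hA.1 n
    exact disc_exists hC (hψn n) a1 a2 a3 a4 a5 hh (hx n h hh)
  classical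
  have hdisc' : ∀ n h, ∃ (η : ℝ → ℂ) (c : ℝ → ℝ) (T₀ T : ℝ), h ∈ Heights (p n) (k n) (S n) →
      Disc (ψn n) (bptD (p n) (k n) (δ n)) (x n h) η c
        (wf (ψn n) (δ n) (p n) (S n) (sh (p n) (S n) h)) T₀ T (δ n) := by
    intro n h
    by_cases hh : h ∈ Heights (p n) (k n) (S n)
    · obtain ⟨η, c, T₀, T, h1⟩ := hdisc n h hh
      exact ⟨η, c, T₀, T, fun _ => h1⟩
    · exact ⟨fun _ => 0, fun _ => 0, 0, 0, fun hc => absurd hc hh⟩
  choose η c T₀ T hd using hdisc'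
  refine ⟨η, c, fun n h => wf (ψn n) (δ n) (p n) (S n) (sh (p n) (S n) h), T₀, T, δ, hA.2.1,
    fun n h hh => hd n h hh, ?_⟩
  intro _ _
  obtain ⟨lam, -, hB, hlim⟩ := (exn_asym hs hC hst hob hi).weak
  refine ⟨lam, hB, fun f hf hM => (hlim f hf hM).congr fun n => ?_⟩
  obtain ⟨a1, a2, a3, a4, a5⟩ := hA.1 n
  rw [mean_law a4 a5]
  refine Ex_congr fun g hg => ?_
  dsimp only
  rw [sh_bk a4 a5 hg]
  rfl

/-- **The target of the block.** -/
theorem s_drv : S_drv := fun hC hst hob => drv_of hC hst hob R1.i_uinj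

end Vale.Agent.P153.R2.DRV
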