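import Vale.Agent.P153.R2.DRV.Far

/-!
# P153, block DRV: the approximate martingale property
-/

set_option autoImplicit false
set_option linter.unusedVariables false

open MeasureTheory ProbabilityTheory Filter Topology Set
open scoped NNReal ENNReal

namespace Vale.Agent.P153.R2.DRV

open Vale.Agent.P153.R2.Final Vale.Agent.P153.R2.UNIQ
open Vale.Agent.P153.R2.INTF (St run fa fb StopIx StopMeas Fk Rk len eta mem_CA Good)
open Vale.Agent.P153.R2.FLDI (inn mem_inn polyF enclF adjF)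
open Vale.Agent.P153.R2.L2 (Crv gg cc ww drv tau)
open Vale.Agent.P153.R2.L2.Crv (drvT)
open Vale.Agent.P164 (loewnerDomain flow flow_eq IsLoewnerSol)

variable {n k : ℕ} {p : ZMod n → ℤ × ℤ} {S : Finset Final.Tri} {δ : ℝ} {ψ : ℂ → ℂ} {g : Hg}

/-! ### The flow of the driver and the maps of the curve -/

/-- The flow of the frozen driver at the capacity time of step `j` is the centred map. -/
theorem flow_gc (hc : Crv (et ψ δ p S g) (nu p S g)) (hn : 0 < nu p S g) {j : ℕ}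
    (hj : j < nu p S g) {z : ℂ} (hz : 0 < z.im) (hcz : 4 * cp ψ δ p S g j < z.im ^ 2) :
    flow ((ex ψ δ p k S).W g) ((ex ψ δ p k S).c g j) z = gc ψ δ p S g j z := by
  have hcj : (ex ψ δ p k S).c g j = cp ψ δ p S g j := by
    change cp ψ δ p S g (sj p S g j) = _
    rw [sj_lt hj]
  have hjh : (j : ℝ) ≤ nu p S g - 1 / 2 := by
    have : (j : ℝ) + 1 ≤ nu p S g := by exact_mod_cast hj
    linarith
  have hjT : (j : ℝ) ∈ Ico 0 (nu p S g : ℝ) := ⟨Nat.cast_nonneg j, by exact_mod_cast hj⟩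
  have h0 : 0 ≤ cp ψ δ p S g j := hc.cap_nonneg hjT
  have hW : ∀ s ∈ Icc 0 (cp ψ δ p S g j), drv (et ψ δ p S g) (nu p S g) s =
      (ex ψ δ p k S).W g s := by
    intro s hs
    change _ = wf ψ δ p S g s.toNNReal
    rw [wf_eq hc hn, Real.coe_toNNReal _ hs.1, L2.Crv.drvT_eq hs.1
      (hs.2.trans (hc.strictMono.monotoneOn hjT (half_mem hn) hjh))]
  have hmem : z ∈ L1.HH \ (et ψ δ p S g) '' Icc 0 (j : ℝ) := by
    refine ⟨hz, ?_⟩
    rintro ⟨s, hs, rfl⟩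
    have hsT : s ∈ Ico 0 (nu p S g : ℝ) := ⟨hs.1, hs.2.trans_lt hjT.2⟩
    have h1 := hc.sq_im_le hsT
    have h2 : cc (et ψ δ p S g) s ≤ cp ψ δ p S g j := hc.strictMono.monotoneOn hsT hjT hs.2
    linarith
  have hsol := L2.loewnerSol_congr hW (hc.sol hjT hmem)
  rw [hcj, flow_eq h0 hsol]
  change gg (et ψ δ p S g) (tau (et ψ δ p S g) (nu p S g) (cc (et ψ δ p S g) j)) z -
    (((ex ψ δ p k S).W g (cp ψ δ p S g j) : ℝ) : ℂ) = _
  rw [hc.tau_cc hjT, ← hW _ ⟨h0, le_rfl⟩]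
  change gg (et ψ δ p S g) j z -
    ((drv (et ψ δ p S g) (nu p S g) (cc (et ψ δ p S g) j) : ℝ) : ℂ) = _
  rw [hc.drv_cc hjT]
  rfl

/-! ### Facts on the lattice -/

theorem inn_Mn (p : ZMod n → ℤ × ℤ) (k : ℕ) (S : Finset Final.Tri) :
    Disjoint (inn p S) (Mn p k S) := by
  rw [Set.disjoint_left]
  intro v hv hM
  obtain ⟨i, rfl⟩ := Mn_sub hM
  exact (mem_inn.1 hv).2 i rfl

theorem p_inn (i : ZMod n) : p i ∉ inn p S := fun hc => (mem_inn.1 hc).2 i rfl

theorem st_inn : (st p S).1 ∉ inn p S ∧ (st p S).2 ∉ inn p S := by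
  unfold st
  split_ifs
  · exact ⟨p_inn 0, p_inn (-1)⟩
  · exact ⟨p_inn (-1), p_inn 0⟩

theorem st_Mn (hp : Final.IsPolygon p) (hk : 0 < k) (hkn : k < n) :
    (st p S).1 ∉ Mn p k S ∧ (st p S).2 ∈ Mn p k S := by
  have e0 : ∀ j, p 0 = p j → j = 0 := fun j hj => (hp.2.1 hj).symm
  have h0 := val_zero hp
  have h1 := val_neg_one hp
  by_cases hP : Pos p S
  · unfold st
    rw [if_pos hP, Mn_pos hP]
    refine ⟨?_, ⟨-1, rfl, by rw [h1]; omega⟩⟩
    rintro ⟨i, hi, hki⟩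
    rw [hp.2.1 hi, h0] at hki
    omega
  · unfold st
    rw [if_neg hP, Mn_neg hP]
    refine ⟨?_, ⟨0, rfl, by rw [h0]; exact hk⟩⟩
    rintro ⟨i, hi, hki⟩
    rw [hp.2.1 hi, h1] at hki
    omega

/-- Conditional expectation. -/
theorem tower_cE (hp : Final.IsPolygon p) (hS : Final.Encloses p S) (hk : 0 < k) (hkn : k < n)
    {κ : Hg → ℕ} (hκ : StopIx (Cs p k S) S (st p S) κ) (hlt : ∀ h ∈ Cs p k S, κ h < nu p S h)
    (Y G : Hg → ℝ) (hY : StopMeas (Cs p k S) S (st p S) κ Y) :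
    Ex (Cs p k S) (fun h => Y h * G h) = Ex (Cs p k S) fun h => Y h * cE p k S h (κ h) G :=
  INTF.tower (inn_Mn p k S) (Finset.finite_toSet _) (st_adj hp) st_inn.1 (st_Mn hp hk hkn).1
    st_inn.2 (st_Mn hp hk hkn).2 hκ
    (fun h hh => (nu_spec hp hS hk hkn hh).1.mono (hlt h hh).le) Y G hY

/-! ### The approximate martingale property -/

section

variable {Φ : (ℝ × ℝ) ≃ₜ (ℝ × ℝ)} {ψ : ℂ → ℂ} {δ : ℕ → ℝ} {N k : ℕ → ℕ}
  {p : ∀ n, ZMod (N n) → ℤ × ℤ} {S : ℕ → Finset Final.Tri} {ψn : ℕ → ℂ → ℂ}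

/-- At stops before the exit, capacity and driver are bounded. -/
theorem stop_bd (hs : Setg Φ ψ δ N k p S ψn) (hC : S_can) (hst : S_step) {T R : ℝ} (hT : 0 ≤ T)
    (hR : 0 < R) : ∀ᶠ n in atTop, ∀ h ∈ Cs (p n) (k n) (S n), ∀ m < nu (p n) (S n) h,
      (∀ j < m, cp (ψn n) (δ n) (p n) (S n) h j ≤ T ∧ |wd (ψn n) (δ n) (p n) (S n) h j| ≤ R) →
      cp (ψn n) (δ n) (p n) (S n) h m ≤ T + 1 ∧ |wd (ψn n) (δ n) (p n) (S n) h m| ≤ R + 1 := by
  obtain ⟨e, he, h⟩ := hst Φ ψ δ N k p S ψn hs T R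
  filter_upwards [h, he.eventually (gt_mem_nhds (show (0 : ℝ) < 1 by norm_num))] with n hn hen g hg
    m hm hb
  have hcr := crv_n hs hC n hg
  rcases Nat.eq_zero_or_pos m with h0 | h0
  · subst h0
    have h1 : cp (ψn n) (δ n) (p n) (S n) g ((0 : ℕ) : ℝ) = 0 := by
      rw [Nat.cast_zero]; exact hcr.cap_zero
    have h2 : wd (ψn n) (δ n) (p n) (S n) g ((0 : ℕ) : ℝ) = 0 := by
      rw [Nat.cast_zero]
      have h3 := ww_zero hcr
      rw [et_zero (hs.unifD n) (can_n hs hC n hg)] at h3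
      exact_mod_cast h3
    rw [h1, h2, abs_zero]
    constructor <;> linarith
  · obtain ⟨j, rfl⟩ : ∃ j, m = j + 1 := ⟨m - 1, by omega⟩
    obtain ⟨h1, h2⟩ := hn g hg j hm fun i hi => hb i (by omega)
    obtain ⟨h3, h4⟩ := hb j (by omega)
    have h5 := h2 (j + 1) ⟨by linarith, le_rfl⟩
    have h6 := abs_add_le (wd (ψn n) (δ n) (p n) (S n) g ((j : ℝ) + 1) -
      wd (ψn n) (δ n) (p n) (S n) g j) (wd (ψn n) (δ n) (p n) (S n) g j)
    rw [sub_add_cancel] at h6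
    push_cast
    constructor <;> linarith

/-- **The approximate martingale property.** -/
theorem exn_mart (hs : Setg Φ ψ δ N k p S ψn) (hC : S_can) (hst : S_step) (hob : S_obs)
    (z : ℂ) (T R : ℝ) (hT : 0 ≤ T) (hR : 0 < R) (hz : 0 < z.im) (hzT : 16 * (T + 1) ≤ z.im ^ 2) :
    ∃ zn : ℕ → ℂ, Tendsto zn atTop (𝓝 z) ∧ ∀ (κ κ' : ℕ → Hg → ℕ) (Y : ℕ → Hg → ℝ),
      (∀ n, (exn δ N k p S ψn n).StopIx (κ n)) → (∀ n, (exn δ N k p S ψn n).StopIx (κ' n)) →
      (∀ n, ∀ h ∈ (exn δ N k p S ψn n).C, κ n h ≤ κ' n h) →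
      (∀ n, ∀ h ∈ (exn δ N k p S ψn n).C, κ' n h < (exn δ N k p S ψn n).K h) →
      (∀ n, ∀ h ∈ (exn δ N k p S ψn n).C, ∀ j < κ' n h,
        (exn δ N k p S ψn n).c h j ≤ T ∧ |(exn δ N k p S ψn n).V h j| ≤ R) →
      (∀ n, (exn δ N k p S ψn n).StopMeas (κ n) (Y n)) →
      (∀ n, ∀ h ∈ (exn δ N k p S ψn n).C, |Y n h| ≤ 1) →
      Tendsto (fun n => Ex (exn δ N k p S ψn n).C fun h =>
        (Complex.arg (flow ((exn δ N k p S ψn n).W h) ((exn δ N k p S ψn n).c h (κ' n h)) (zn n)) -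
          Complex.arg (flow ((exn δ N k p S ψn n).W h) ((exn δ N k p S ψn n).c h (κ n h)) (zn n)))
          * Y n h) atTop (𝓝 0) := by
  obtain ⟨zn, G, hzn, hG⟩ := hob Φ ψ δ N k p S ψn hs z T R hz hT hR hzT
  refine ⟨zn, hzn, fun κ κ' Y hκ hκ' hle hlt hb hY hY1 => ?_⟩
  have hlt' : ∀ n, ∀ h ∈ Cs (p n) (k n) (S n), κ' n h < nu (p n) (S n) h := hlt
  have hltk : ∀ n, ∀ h ∈ Cs (p n) (k n) (S n), κ n h < nu (p n) (S n) h := fun n h hh =>
    lt_of_le_of_lt (hle n h hh) (hlt' n h hh)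
  have hb' : ∀ n, ∀ h ∈ Cs (p n) (k n) (S n), ∀ j < κ' n h,
      cp (ψn n) (δ n) (p n) (S n) h j ≤ T ∧ |wd (ψn n) (δ n) (p n) (S n) h j| ≤ R := by
    intro n h hh j hj
    have h1 := hb n h hh j hj
    have h2 : j < nu (p n) (S n) h := hj.trans (hlt' n h hh)
    rwa [exn_c n h2, exn_V hs hC n hh h2] at h1
  have hbd := stop_bd hs hC hst hT hR
  have hA' := hG κ' hκ' hlt' (by
    filter_upwards [hbd] with n hn h hh
    exact hn h hh _ (hlt' n h hh) (hb' n h hh))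
  have hA := hG κ hκ hltk (by
    filter_upwards [hbd] with n hn h hh
    exact hn h hh _ (hltk n h hh) fun j hj => hb' n h hh j (lt_of_lt_of_le hj (hle n h hh)))
  -- the point is alive for large `n`
  have hzn1 : ∀ᶠ n in atTop, 0 < (zn n).im :=
    ((Complex.continuous_im.tendsto z).comp hzn).eventually (lt_mem_nhds hz)
  have hzn2 : ∀ᶠ n in atTop, 4 * (T + 1) < (zn n).im ^ 2 := by
    have h1 : Tendsto (fun n => (zn n).im ^ 2) atTop (𝓝 (z.im ^ 2)) :=
      ((Complex.continuous_im.tendsto z).comp hzn).pow 2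
    exact h1.eventually (lt_mem_nhds (by nlinarith))
  have hsum := hA'.add hA
  rw [add_zero] at hsum
  refine squeeze_zero_norm' ?_ hsum
  filter_upwards [hbd, hzn1, hzn2] with n hn hz1 hz2
  obtain ⟨a1, a2, a3, a4, a5⟩ := hs.appr.1 n
  set C := Cs (p n) (k n) (S n) with hCdef
  set A' : Hg → ℝ := fun h => (gc (ψn n) (δ n) (p n) (S n) h (κ' n h) (zn n)).arg with hA'def
  set A : Hg → ℝ := fun h => (gc (ψn n) (δ n) (p n) (S n) h (κ n h) (zn n)).arg with hAdef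
  set E' : Hg → ℝ := fun h => cE (p n) (k n) (S n) h (κ' n h) (G n) with hE'def
  set E : Hg → ℝ := fun h => cE (p n) (k n) (S n) h (κ n h) (G n) with hEdef
  have hfl : ∀ h ∈ C, ∀ m < nu (p n) (S n) h,
      (∀ j < m, cp (ψn n) (δ n) (p n) (S n) h j ≤ T ∧ |wd (ψn n) (δ n) (p n) (S n) h j| ≤ R) →
      flow ((exn δ N k p S ψn n).W h) ((exn δ N k p S ψn n).c h m) (zn n) =
        gc (ψn n) (δ n) (p n) (S n) h m (zn n) := by
    intro h hh m hm hbm
    refine flow_gc (crv_n hs hC n hh) (can_n hs hC n hh).pos hm hz1 ?_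
    have := (hn h hh m hm hbm).1
    linarith
  have htow : Ex C (fun h => Y n h * E' h) = Ex C fun h => Y n h * E h := by
    rw [← tower_cE a4 a5 a2 a3 (hκ n) (hltk n) (Y n) (G n) (hY n),
      ← tower_cE a4 a5 a2 a3 (hκ' n) (hlt' n) (Y n) (G n) ?_]
    intro h hh h' hh' ha
    exact hY n h hh h' hh' fun j hj => ha j (hj.trans (hle n h hh))
  have key : (Ex (exn δ N k p S ψn n).C fun h =>
        (Complex.arg (flow ((exn δ N k p S ψn n).W h) ((exn δ N k p S ψn n).c h (κ' n h)) (zn n)) -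
          Complex.arg (flow ((exn δ N k p S ψn n).W h) ((exn δ N k p S ψn n).c h (κ n h)) (zn n)))
          * Y n h) = Ex C (fun h => (A' h - E' h) * Y n h) - Ex C (fun h => (A h - E h) * Y n h) := by
    have h1 : (Ex (exn δ N k p S ψn n).C fun h =>
        (Complex.arg (flow ((exn δ N k p S ψn n).W h) ((exn δ N k p S ψn n).c h (κ' n h)) (zn n)) -
          Complex.arg (flow ((exn δ N k p S ψn n).W h) ((exn δ N k p S ψn n).c h (κ n h)) (zn n)))
          * Y n h) = Ex C fun h => (((A' h - E' h) * Y n h) - ((A h - E h) * Y n h)) +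
            (Y n h * E' h - Y n h * E h) := by
      refine Ex_congr fun h hh => ?_
      rw [hfl h hh (κ' n h) (hlt' n h hh) (hb' n h hh),
        hfl h hh (κ n h) (hltk n h hh) fun j hj => hb' n h hh j (lt_of_lt_of_le hj (hle n h hh))]
      simp only [hA'def, hAdef]
      ring
    rw [h1, Ex_add, Ex_sub, Ex_sub, htow, sub_self, add_zero]
  rw [key, Real.norm_eq_abs]
  refine (abs_sub _ _).trans (add_le_add ?_ ?_)
  · refine (abs_Ex_le _).trans (Ex_mono fun h hh => ?_)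
    rw [abs_mul]
    exact mul_le_of_le_one_right (abs_nonneg _) (hY1 n h hh)
  · refine (abs_Ex_le _).trans (Ex_mono fun h hh => ?_)
    rw [abs_mul]
    exact mul_le_of_le_one_right (abs_nonneg _) (hY1 n h hh)

/-- **The interfaces form an asymptotic system.** -/
theorem exn_asym (hs : Setg Φ ψ δ N k p S ψn) (hC : S_can) (hst : S_step) (hob : S_obs)
    (hi : I_uinj) : M1.Asym (exn δ N k p S ψn) where
  wf := fun n => by
    obtain ⟨a1, a2, a3, a4, a5⟩ := hs.appr.1 n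
    exact ex_wf hC (hs.unifD n) a1 a2 a3 a4 a5
  small := exn_small hs hC hst
  far := exn_far hs hC hst hi
  mart := exn_mart hs hC hst hob

end

end Vale.Agent.P153.R2.DRV
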