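import Vale.Agent.P153.R2.UNIQ.Inputs
import Vale.Agent.P153.R2.INTF.Markov
import Vale.Agent.P153.R2.L2.Driver
import Vale.Agent.P153.R2.FLDI.LatDefs

/-!
# P153, block DRV: the proof of `UNIQ.I_drv`; statements

Heights are multiplied by the sign `sg` (so that they are positive on the left of the interface) and
get the dummy value `1` off the domain: `sh p S h`. They form the set `Cs p k S = INTF.CA (inn p S)
(Mn p k S)`, the interface is `ru p S h` (states `(l, r)`, `l` positive, `r` negative), with `len`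
steps, and it is the polygonal curve `pl` through the midpoints of the edges; `et` is its image in
the half-plane.
-/

set_option autoImplicit false
set_option linter.unusedVariables false

open MeasureTheory ProbabilityTheory Filter Topology Set
open scoped NNReal ENNReal

namespace Vale.Agent.P153.R2.DRV

open Vale.Agent.P153.R2.Final Vale.Agent.P153.R2.UNIQ
open Vale.Agent.P153.R2.INTF (St run fa StopIx StopMeas Fk Rk len)
open Vale.Agent.P153.R2.FLDI (inn)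

variable {n : ℕ}

/-- The face ahead of the state `(p 0, p (-1))` is in the domain: the interface starts in this
state. -/
def Pos (p : ZMod n → ℤ × ℤ) (S : Finset Final.Tri) : Prop := fa (p 0, p (-1)) ∈ S

open Classical in
/-- The first state. -/
noncomputable def st (p : ZMod n → ℤ × ℤ) (S : Finset Final.Tri) : St :=
  if Pos p S then (p 0, p (-1)) else (p (-1), p 0)

open Classical in
/-- The sign. -/
noncomputable def sg (p : ZMod n → ℤ × ℤ) (S : Finset Final.Tri) : ℤ := if Pos p S then 1 else -1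

open Classical in
/-- The vertices of the polygon where `sg * h = -1`. -/
noncomputable def Mn (p : ZMod n → ℤ × ℤ) (k : ℕ) (S : Finset Final.Tri) : Set (ℤ × ℤ) :=
  if Pos p S then {v | ∃ i, p i = v ∧ k ≤ i.val} else {v | ∃ i, p i = v ∧ i.val < k}

/-- The vertices of the polygon where `sg * h = 1`. -/
noncomputable def Pn (p : ZMod n → ℤ × ℤ) (k : ℕ) (S : Finset Final.Tri) : Set (ℤ × ℤ) :=
  range p \ Mn p k S

/-- The signed heights, with the dummy value `1` off the domain. -/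
noncomputable def sh (p : ZMod n → ℤ × ℤ) (S : Finset Final.Tri) (h : Hg) : Hg := fun v =>
  if v ∈ Final.verts S then sg p S * h v else 1

/-- The set of the signed heights. -/
noncomputable def Cs (p : ZMod n → ℤ × ℤ) (k : ℕ) (S : Finset Final.Tri) : Set Hg :=
  INTF.CA (inn p S) (Mn p k S)

/-- The interface as a sequence of states (constant after the exit). -/
noncomputable def ru (p : ZMod n → ℤ × ℤ) (S : Finset Final.Tri) (h : Hg) : ℕ → St :=
  run h S (st p S)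

/-- The number of steps. -/
noncomputable def nu (p : ZMod n → ℤ × ℤ) (S : Finset Final.Tri) (h : Hg) : ℕ :=
  len h S (st p S)

/-- The polygonal curve through the midpoints of the edges `ρ 0, ρ 1, …`. -/
noncomputable def pl (δ : ℝ) (ρ : ℕ → St) (t : ℝ) : ℂ :=
  ((1 - (t - ⌊t⌋₊) : ℝ) : ℂ) * mid δ (ρ ⌊t⌋₊).1 (ρ ⌊t⌋₊).2 +
    ((t - ⌊t⌋₊ : ℝ) : ℂ) * mid δ (ρ (⌊t⌋₊ + 1)).1 (ρ (⌊t⌋₊ + 1)).2

/-- The curve in the half-plane. -/
noncomputable def et (ψ : ℂ → ℂ) (δ : ℝ) (p : ZMod n → ℤ × ℤ) (S : Finset Final.Tri) (h : Hg)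
    (t : ℝ) : ℂ := Function.invFunOn ψ {z : ℂ | 0 ≤ z.im} (pl δ (ru p S h) t)

/-- Half-plane capacity of the curve in the half-plane. -/
noncomputable def cp (ψ : ℂ → ℂ) (δ : ℝ) (p : ZMod n → ℤ × ℤ) (S : Finset Final.Tri) (h : Hg)
    (t : ℝ) : ℝ := L2.cc (et ψ δ p S h) t

/-- The image of the tip (driver). -/
noncomputable def wd (ψ : ℂ → ℂ) (δ : ℝ) (p : ZMod n → ℤ × ℤ) (S : Finset Final.Tri) (h : Hg)
    (t : ℝ) : ℝ := L2.ww (et ψ δ p S h) t

/-- The centred map `g_t - W_t` of the curve in the half-plane. -/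
noncomputable def gc (ψ : ℂ → ℂ) (δ : ℝ) (p : ZMod n → ℤ × ℤ) (S : Finset Final.Tri) (h : Hg)
    (t : ℝ) (z : ℂ) : ℂ := L2.gg (et ψ δ p S h) t z - (wd ψ δ p S h t : ℂ)

/-- The conditional expectation of `G`, given the first `j` steps of the interface of `h`. -/
noncomputable def cE (p : ZMod n → ℤ × ℤ) (k : ℕ) (S : Finset Final.Tri) (h : Hg) (j : ℕ)
    (G : Hg → ℝ) : ℝ :=
  Ex (INTF.CA (Fk (inn p S) h S (st p S) j) (Mn p k S ∪ Rk h S (st p S) j)) G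

/-- The hypotheses of `UNIQ.I_drv`. -/
structure Setg (Φ : (ℝ × ℝ) ≃ₜ (ℝ × ℝ)) (ψ : ℂ → ℂ) (δ : ℕ → ℝ) (N k : ℕ → ℕ)
    (p : ∀ n, ZMod (N n) → ℤ × ℤ) (S : ℕ → Finset Final.Tri) (ψn : ℕ → ℂ → ℂ) : Prop where
  unif : IsUniformizer Φ ψ
  appr : Approx Φ δ N k p S
  unifD : ∀ n, IsUnifD (p n) (k n) (S n) (δ n) (ψn n)
  conv : ∀ ε > 0, ∀ᶠ n in atTop, ∀ z : ℂ, 0 ≤ z.im → dist (ψn n z) (ψ z) < ε

/-! ### Inputs -/

/-- CAN (helper165, helper639): the canonical curve. -/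
def S_can : Prop := ∀ (n k : ℕ) (p : ZMod n → ℤ × ℤ) (S : Finset Final.Tri) (δ : ℝ), 0 < δ →
  0 < k → k < n → IsPolygon p → Encloses p S → ∀ h ∈ Heights p k S,
    0 < nu p S (sh p S h) ∧
    pl δ (ru p S (sh p S h)) 0 = mid δ (p (-1)) (p 0) ∧
    pl δ (ru p S (sh p S h)) (nu p S (sh p S h)) = bptD p k δ ∧
    InjOn (pl δ (ru p S (sh p S h))) (Icc 0 (nu p S (sh p S h) : ℝ)) ∧
    (∀ t ∈ Ioo 0 (nu p S (sh p S h) : ℝ),
      pl δ (ru p S (sh p S h)) t ∈ toC '' interior (region δ S)) ∧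
    ∀ x : C(unitInterval, ℂ), IsInterface p k S δ h x → ∃ σ : unitInterval → ℝ, Continuous σ ∧
      StrictMono σ ∧ σ 0 = 0 ∧ σ 1 = nu p S (sh p S h) ∧
      ∀ t, x t = pl δ (ru p S (sh p S h)) (σ t)

/-- STEP (helper714): before the exit from `[0, T] × [-R, R]` the steps are uniformly small. -/
def S_step : Prop := ∀ (Φ : (ℝ × ℝ) ≃ₜ (ℝ × ℝ)) (ψ : ℂ → ℂ) (δ : ℕ → ℝ) (N k : ℕ → ℕ)
  (p : ∀ n, ZMod (N n) → ℤ × ℤ) (S : ℕ → Finset Final.Tri) (ψn : ℕ → ℂ → ℂ),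
  Setg Φ ψ δ N k p S ψn → ∀ T R : ℝ, ∃ e : ℕ → ℝ, Tendsto e atTop (𝓝 0) ∧ ∀ᶠ n in atTop,
    ∀ h ∈ Cs (p n) (k n) (S n), ∀ j : ℕ, j + 1 < nu (p n) (S n) h →
    (∀ i : ℕ, i ≤ j → cp (ψn n) (δ n) (p n) (S n) h i ≤ T ∧
      |wd (ψn n) (δ n) (p n) (S n) h i| ≤ R) →
    cp (ψn n) (δ n) (p n) (S n) h (j + 1) - cp (ψn n) (δ n) (p n) (S n) h j ≤ e n ∧
    ∀ t ∈ Icc (j : ℝ) (j + 1),
      |wd (ψn n) (δ n) (p n) (S n) h t - wd (ψn n) (δ n) (p n) (S n) h j| ≤ e n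

/-- OBSV (helper942, helper113): at stopping indices with bounded capacity and driver the argument
of the centred map is close in `L¹` to the conditional expectation of a fixed function. -/
def S_obs : Prop := ∀ (Φ : (ℝ × ℝ) ≃ₜ (ℝ × ℝ)) (ψ : ℂ → ℂ) (δ : ℕ → ℝ) (N k : ℕ → ℕ)
  (p : ∀ n, ZMod (N n) → ℤ × ℤ) (S : ℕ → Finset Final.Tri) (ψn : ℕ → ℂ → ℂ),
  Setg Φ ψ δ N k p S ψn → ∀ (z : ℂ) (T R : ℝ), 0 < z.im → 0 ≤ T → 0 < R →
    16 * (T + 1) ≤ z.im ^ 2 → ∃ (zn : ℕ → ℂ) (G : ℕ → Hg → ℝ), Tendsto zn atTop (𝓝 z) ∧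
      ∀ κ : ℕ → Hg → ℕ,
        (∀ n, StopIx (Cs (p n) (k n) (S n)) (S n) (st (p n) (S n)) (κ n)) →
        (∀ n, ∀ h ∈ Cs (p n) (k n) (S n), κ n h < nu (p n) (S n) h) →
        (∀ᶠ n in atTop, ∀ h ∈ Cs (p n) (k n) (S n),
          cp (ψn n) (δ n) (p n) (S n) h (κ n h) ≤ T + 1 ∧
          |wd (ψn n) (δ n) (p n) (S n) h (κ n h)| ≤ R + 1) →
        Tendsto (fun n => Ex (Cs (p n) (k n) (S n)) fun h =>
          |(gc (ψn n) (δ n) (p n) (S n) h (κ n h) (zn n)).arg -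
            cE (p n) (k n) (S n) h (κ n h) (G n)|) atTop (𝓝 0)

/-- The target. -/
def S_drv : Prop := S_can → S_step → S_obs → I_drv

end Vale.Agent.P153.R2.DRV
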