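import Vale.Agent.P153.R2.DRV.Main
import Vale.Agent.P153.R2.POLY.Can
import Vale.Agent.P153.R2.STEP.Drv

/-!
# P153, block DRV: `UNIQ.I_drv` from the observable alone
-/

set_option autoImplicit false
set_option linter.unusedVariables false

namespace Vale.Agent.P153.R2.DRV

open Vale.Agent.P153.R2.Final Vale.Agent.P153.R2.UNIQ

theorem canCs : STEP.CanCs := by
  intro n k p S δ hδ hk hkn hp hS h hh
  have hc := can_of POLY.s_can hδ hk hkn hp hS hh
  exact ⟨hc.pos, hc.start, hc.fin, hc.inj, hc.inter⟩

theorem s_step : S_step := STEP.s_step canCs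

/-- **The drivers converge in law to `2 B`**, if the observable converges. -/
theorem i_drv (hob : S_obs) : I_drv := s_drv POLY.s_can s_step hob

end Vale.Agent.P153.R2.DRV
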